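import Vale.Agent.P092.H218.NAll

/-!
P092 (helper218), TEAM N: the density step for the middle factor of `Key₁`.
-/

set_option linter.all false

open Set Topology Module

namespace Vale.Agent.P092.H218.NC

open Vale.Agent.P092.H100.Gr (Gr)
open Vale.Agent.P092.H232 (Nin)

/-- an identity `A * l g * B = 0` for `g` in a set with dense span -/
theorem mid_dense {X K : Type*} [TopologicalSpace X] [CompactSpace X] [NormedAddCommGroup K]
    [InnerProductSpace ℂ K] [CompleteSpace K] (l : C(X, ℂ) →⋆ₐ[ℂ] (K →L[ℂ] K))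
    (A B : K →L[ℂ] K) {D : Set C(X, ℂ)} (hD : Dense (Submodule.span ℂ D : Set C(X, ℂ)))
    (h : ∀ g ∈ D, A * l g * B = 0) (g : C(X, ℂ)) : A * l g * B = 0 := by
  let V : Submodule ℂ C(X, ℂ) :=
    { carrier := {g | A * l g * B = 0}
      zero_mem' := by
        change A * l 0 * B = 0
        rw [map_zero, mul_zero, zero_mul]
      add_mem' := by
        intro f g (hf : A * l f * B = 0) (hg : A * l g * B = 0)
        change A * l (f + g) * B = 0
        rw [map_add, mul_add, add_mul, hf, hg, add_zero]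
      smul_mem' := by
        intro c f (hf : A * l f * B = 0)
        change A * l (c • f) * B = 0
        rw [map_smul, mul_smul_comm, smul_mul_assoc, hf, smul_zero] }
  have hV : IsClosed (V : Set C(X, ℂ)) := by
    have hl : Continuous l := by
      have := (NonUnitalStarAlgHom.instContinuousLinearMapClassComplex :
        ContinuousLinearMapClass (C(X, ℂ) →⋆ₐ[ℂ] (K →L[ℂ] K)) ℂ _ _)
      exact map_continuous l
    exact isClosed_singleton.preimage ((continuous_const.mul hl).mul continuous_const)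
  have h1 : Submodule.span ℂ D ≤ V := Submodule.span_le.2 h
  have h2 : closure (Submodule.span ℂ D : Set C(X, ℂ)) ⊆ V := hV.closure_subset_iff.2 h1
  exact h2 (hD g)

variable {F : Type*} [Field F] {k : Type*} [NontriviallyNormedField k] [ProperSpace k] {N : ℕ}
  {K : Type*} [NormedAddCommGroup K] [InnerProductSpace ℂ K] [CompleteSpace K]
  {G : ∀ j, Gr F (Fin (N + 1)) j → (C(Gr k (Fin (N + 1)) j, ℂ) →⋆ₐ[ℂ] (K →L[ℂ] K))}

/-- `Key₁` for `g` in a set with dense span is enough -/
theorem key₁_of_dense {D : Set C(Gr k (Fin (N + 1)) 2, ℂ)}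
    (hD : Dense (Submodule.span ℂ D : Set C(Gr k (Fin (N + 1)) 2, ℂ)))
    (h : ∀ (C : Gr F (Fin (N + 1)) N) (l : Gr F (Fin (N + 1)) 2) (b : Gr F (Fin (N + 1)) 1),
      b.1 ≤ C.1 → ¬ l.1 ≤ C.1 → ¬ b.1 ≤ l.1 → ∀ u a, Nin In a u → ∀ g ∈ D,
        G N C u * G 2 l g * G 1 b a = 0) : Key₁ G :=
  fun C l b h1 h2 h3 u g a hu => mid_dense (G 2 l) _ _ hD (h C l b h1 h2 h3 u a hu) g

end Vale.Agent.P092.H218.NC
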