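import Vale.Agent.P092.H100.Gr1
import Vale.Agent.P092.H232.Join

/-!
P092 (helper218), TEAM N, block [N-CHAIN]: from `KEY` (hyperplane `C`, line `l`, point `b`) to
'all points commute', for subspaces of `F^(N+1)`, `N ≥ 2`, by the join argument
(`H232.join`) only.

Source: subspaces of `Fin (N+1) → F`, `F` any field; target: subspaces of `Fin (N+1) → k`.
-/

set_option linter.all false

open Set Topology Module

namespace Vale.Agent.P092.H218.NC

open Vale.Agent.P092.H100.Gr (Gr incG incG_closed eq_of_le)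
open Vale.Agent.P092.H232 (Nin join comm_of_key)

section alg

variable {F : Type*} [Field F] {ι : Type*} [Fintype ι] {i j : ℕ}

theorem finrank_sup_ge {X Y : Submodule F (ι → F)} (h : ¬ X ≤ Y) :
    finrank F Y + 1 ≤ finrank F ↥(X ⊔ Y) := by
  have h1 : Y < X ⊔ Y := lt_of_le_of_ne le_sup_right fun he => h (he ▸ le_sup_left)
  exact Submodule.finrank_lt_finrank_of_lt h1

/-- the join of `x` and `y` is unique in dimension `j + 1` -/
theorem join_uniq (x : Gr F ι i) (y : Gr F ι j) (h : ¬ x.1 ≤ y.1) (z z' : Gr F ι (j + 1))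
    (h1 : x.1 ≤ z.1) (h2 : y.1 ≤ z.1) (h3 : x.1 ≤ z'.1) (h4 : y.1 ≤ z'.1) : z = z' := by
  have hx := finrank_sup_ge h
  rw [y.2] at hx
  have e1 : x.1 ⊔ y.1 = z.1 := by
    refine Submodule.eq_of_le_of_finrank_le (sup_le h1 h2) ?_
    rw [z.2]; exact hx
  have e2 : x.1 ⊔ y.1 = z'.1 := by
    refine Submodule.eq_of_le_of_finrank_le (sup_le h3 h4) ?_
    rw [z'.2]; exact hx
  exact Subtype.ext (e1.symm.trans e2)

/-- a line not in `H` meets `H` in at most one point -/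
theorem meet_uniq (x : Gr F ι i) (l : Gr F ι 2) (h : ¬ l.1 ≤ x.1) (z z' : Gr F ι 1)
    (h1 : z.1 ≤ x.1) (h2 : z.1 ≤ l.1) (h3 : z'.1 ≤ x.1) (h4 : z'.1 ≤ l.1) : z = z' := by
  by_contra hne
  have h5 : ¬ z.1 ≤ z'.1 := fun hle => hne (eq_of_le' hle)
  have h6 := finrank_sup_ge h5
  rw [z'.2] at h6
  have h7 : z.1 ⊔ z'.1 = l.1 := by
    refine Submodule.eq_of_le_of_finrank_le (sup_le h2 h4) ?_
    rw [l.2]; exact h6
  exact h (h7 ▸ sup_le h1 h3)
where
  eq_of_le' {z z' : Gr F ι 1} (h : z.1 ≤ z'.1) : z = z' :=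
    Subtype.ext (Submodule.eq_of_le_of_finrank_eq h (z.2.trans z'.2.symm))

theorem eq_of_le₀ {z z' : Gr F ι j} (h : z.1 ≤ z'.1) : z = z' :=
  Subtype.ext (Submodule.eq_of_le_of_finrank_eq h (z.2.trans z'.2.symm))

/-- the point of a vector -/
def pt (v : ι → F) (hv : v ≠ 0) : Gr F ι 1 := ⟨Submodule.span F {v}, finrank_span_singleton hv⟩

theorem pt_le {v : ι → F} {hv : v ≠ 0} {X : Submodule F (ι → F)} : (pt v hv).1 ≤ X ↔ v ∈ X := by
  change Submodule.span F {v} ≤ X ↔ v ∈ X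
  rw [Submodule.span_singleton_le_iff_mem]

theorem exists_pt {X Y : Submodule F (ι → F)} (h : ¬ X ≤ Y) :
    ∃ b : Gr F ι 1, b.1 ≤ X ∧ ¬ b.1 ≤ Y := by
  obtain ⟨v, hv, hv'⟩ := SetLike.not_le_iff_exists.1 h
  have h0 : v ≠ 0 := fun h0 => hv' (h0 ▸ Y.zero_mem)
  exact ⟨pt v h0, pt_le.2 hv, fun h1 => hv' (pt_le.1 h1)⟩

/-- `dim (b + Y) = j + 1` -/
theorem rank_join (b : Gr F ι 1) (Y : Gr F ι j) (h : ¬ b.1 ≤ Y.1) :
    finrank F ↥(b.1 ⊔ Y.1) = j + 1 := by
  have h1 := finrank_sup_ge h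
  have h2 := Submodule.finrank_sup_add_finrank_inf_eq b.1 Y.1
  rw [Y.2] at h1 h2
  rw [b.2] at h2
  omega

theorem rank_join' (l : Gr F ι 2) (Y : Gr F ι j) (z : Gr F ι 1) (hzl : z.1 ≤ l.1)
    (hzY : z.1 ≤ Y.1) (h : ¬ l.1 ≤ Y.1) : finrank F ↥(l.1 ⊔ Y.1) = j + 1 := by
  have h1 := finrank_sup_ge h
  have h2 := Submodule.finrank_sup_add_finrank_inf_eq l.1 Y.1
  have h3 : finrank F z.1 ≤ finrank F ↥(l.1 ⊓ Y.1) := Submodule.finrank_mono (le_inf hzl hzY)
  rw [Y.2] at h1 h2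
  rw [l.2] at h2
  rw [z.2] at h3
  omega

theorem exists_other (Y : Gr F ι j) (P : Gr F ι (j + 1)) (hYP : Y.1 ≤ P.1)
    (hP : j + 1 < Fintype.card ι) : ∃ Q : Gr F ι (j + 1), Y.1 ≤ Q.1 ∧ Q ≠ P := by
  have h1 : ¬ (⊤ : Submodule F (ι → F)) ≤ P.1 := fun h => by
    have := Submodule.finrank_mono h
    rw [finrank_top, finrank_pi, P.2] at this
    omega
  obtain ⟨b, -, hb⟩ := exists_pt h1
  have hbY : ¬ b.1 ≤ Y.1 := fun h => hb (h.trans hYP)
  refine ⟨⟨b.1 ⊔ Y.1, rank_join b Y hbY⟩, le_sup_right, fun he => hb ?_⟩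
  rw [← he]
  exact le_sup_left

/-- the line of two points -/
theorem exists_line (a b : Gr F ι 1) (h : a ≠ b) : ∃ l : Gr F ι 2, a.1 ≤ l.1 ∧ b.1 ≤ l.1 :=
  ⟨⟨a.1 ⊔ b.1, rank_join a b fun hle => h (eq_of_le₀ hle)⟩, le_sup_left, le_sup_right⟩

theorem exists_two_lines (b : Gr F ι 1) (h : 2 < Fintype.card ι) :
    ∃ l l' : Gr F ι 2, l ≠ l' ∧ b.1 ≤ l.1 ∧ b.1 ≤ l'.1 := by
  have h1 : ¬ (⊤ : Submodule F (ι → F)) ≤ b.1 := fun h' => by
    have := Submodule.finrank_mono h'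
    rw [finrank_top, finrank_pi, b.2] at this
    omega
  obtain ⟨c, -, hc⟩ := exists_pt h1
  obtain ⟨l, hcl, hbl⟩ := exists_line c b fun he => hc (he ▸ le_rfl)
  obtain ⟨l', h2, h3⟩ := exists_other b l hbl (by omega)
  exact ⟨l, l', h3.symm, hbl, h2⟩

theorem not_le_of_lt {X : Gr F ι i} {Y : Gr F ι j} (h : j < i) : ¬ X.1 ≤ Y.1 := fun hle => by
  have := Submodule.finrank_mono hle
  rw [X.2, Y.2] at this
  omega

end alg

section chain

variable {F : Type*} [Field F] {k : Type*} [NontriviallyNormedField k] [ProperSpace k] {N : ℕ}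
  {K : Type*} [NormedAddCommGroup K] [InnerProductSpace ℂ K] [CompleteSpace K]

/-- inclusion of target subspaces -/
def In {i j : ℕ} (L : Gr k (Fin (N + 1)) i) (M : Gr k (Fin (N + 1)) j) : Prop := L.1 ≤ M.1

/-- calculi of the source subspaces (the fields `com`, `inc`, `agr` of `H618.RkOut`, and AGR of the
points) -/
structure Cal (G : ∀ j, Gr F (Fin (N + 1)) j →
    (C(Gr k (Fin (N + 1)) j, ℂ) →⋆ₐ[ℂ] (K →L[ℂ] K))) : Prop where
  com : ∀ i j, 1 ≤ i → i ≤ j → j ≤ N → ∀ (X : Gr F (Fin (N + 1)) i) (X' : Gr F (Fin (N + 1)) j),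
    X.1 ≤ X'.1 → ∀ f f', Commute (G i X f) (G j X' f')
  inc : ∀ i j, 1 ≤ i → i ≤ j → j ≤ N → ∀ (X : Gr F (Fin (N + 1)) i) (X' : Gr F (Fin (N + 1)) j),
    X.1 ≤ X'.1 → ∀ u h, Nin In u h → G i X u * G j X' h = 0
  agr₁ : ∀ a b : Gr F (Fin (N + 1)) 1, a ≠ b → ∀ ξ : K, (∀ f, G 1 a f ξ = G 1 b f ξ) → ξ = 0
  agr : ∀ j, 1 ≤ j → j < N → ∀ A B : Gr F (Fin (N + 1)) (j + 1), A ≠ B →
    (∃ X : Gr F (Fin (N + 1)) j, X.1 ≤ A.1 ∧ X.1 ≤ B.1) → ∀ ξ : K,
    (∀ f, G (j + 1) A f ξ = G (j + 1) B f ξ) → ξ = 0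

/-- **KEY**: hyperplane `C`, line `l`, point `b`. -/
def Key₁ (G : ∀ j, Gr F (Fin (N + 1)) j →
    (C(Gr k (Fin (N + 1)) j, ℂ) →⋆ₐ[ℂ] (K →L[ℂ] K))) : Prop :=
  ∀ (C : Gr F (Fin (N + 1)) N) (l : Gr F (Fin (N + 1)) 2) (b : Gr F (Fin (N + 1)) 1),
    b.1 ≤ C.1 → ¬ l.1 ≤ C.1 → ¬ b.1 ≤ l.1 → ∀ u g a, Nin In a u →
      G N C u * G 2 l g * G 1 b a = 0

variable {G : ∀ j, Gr F (Fin (N + 1)) j → (C(Gr k (Fin (N + 1)) j, ℂ) →⋆ₐ[ℂ] (K →L[ℂ] K))}

theorem in_closed {i j : ℕ} :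
    IsClosed {q : Gr k (Fin (N + 1)) i × Gr k (Fin (N + 1)) j | In q.1 q.2} := incG_closed

theorem in_closed' {i j : ℕ} :
    IsClosed {q : Gr k (Fin (N + 1)) i × Gr k (Fin (N + 1)) j | In q.2 q.1} :=
  in_closed.preimage continuous_swap

theorem nin_swap {X Y : Type*} [TopologicalSpace X] [TopologicalSpace Y] {I : X → Y → Prop}
    {u : C(X, ℂ)} {a : C(Y, ℂ)} (h : Nin (fun y x => I x y) a u) : Nin I u a :=
  fun x hx y hy => h y hy x hx

theorem tsupport_star {X : Type*} [TopologicalSpace X] (v : C(X, ℂ)) :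
    tsupport ⇑(star v) = tsupport ⇑v := by
  unfold tsupport
  congr 1
  ext x; simp [Function.mem_support]

/-- Step A: `E_M E_l E_ν` -/
theorem stepA (hN : 2 ≤ N) (hG : Cal G) (hK : Key₁ G) (M : Gr F (Fin (N + 1)) N)
    (l ν : Gr F (Fin (N + 1)) 2) (z : Gr F (Fin (N + 1)) 1) (hzl : z.1 ≤ l.1) (hzν : z.1 ≤ ν.1)
    (hνM : ν.1 ≤ M.1) (hlM : ¬ l.1 ≤ M.1) (u) (g) (a) (h : Nin In a u) :
    G N M u * G 2 l g * G 2 ν a = 0 := by
  obtain ⟨b, hbν, hbz⟩ := exists_pt (X := ν.1) (Y := z.1) (not_le_of_lt (by norm_num))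
  have hbl : ¬ b.1 ≤ l.1 := by
    intro hbl
    refine hlM ?_
    have : b = z ∨ l = ν := by
      by_cases hb : b = z
      · exact Or.inl hb
      · exact Or.inr (join_uniq b z (fun hle => hb (eq_of_le₀ hle)) l ν hbl hzl hbν hzν)
    rcases this with h1 | h1
    · exact absurd (h1 ▸ le_rfl) hbz
    · rw [h1]; exact hνM
  have hzM := hzν.trans hνM
  refine join (I₁ := fun H z => In z H) (I₂ := fun N z => In z N) (J := fun H N => In N H)
    in_closed' in_closed'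
    (fun x y hxy z z' h1 h2 h3 h4 => meet_uniq x y hxy z z' h1 h2 h3 h4)
    (G N M) (G 2 ν) (G 2 l g) (G 1 z) (G 1 b)
    (fun u v => (hG.com 1 N le_rfl (by omega) le_rfl z M hzM v u).symm)
    (fun a v => (hG.com 1 2 le_rfl (by omega) hN z ν hzν v a).symm)
    (fun v => (hG.com 1 2 le_rfl (by omega) hN z l hzl v g).symm)
    (fun a s => (hG.com 1 2 le_rfl (by omega) hN b ν hbν s a).symm)
    (fun u v huv => ?_) (fun a v hav => ?_) (fun a s has => ?_)
    (hG.agr₁ z b fun he => hbz (he ▸ le_rfl)) (D := univ) isOpen_univ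
    (fun u s _ hus => hK M l b (hbν.trans hνM) hlM hbl u g s (nin_swap hus)) u a
    (subset_univ _) (nin_swap h)
  · rw [← (hG.com 1 N le_rfl (by omega) le_rfl z M hzM v u).eq]
    exact hG.inc 1 N le_rfl (by omega) le_rfl z M hzM v u (nin_swap huv)
  · rw [← (hG.com 1 2 le_rfl (by omega) hN z ν hzν v a).eq]
    exact hG.inc 1 2 le_rfl (by omega) hN z ν hzν v a (nin_swap hav)
  · rw [← (hG.com 1 2 le_rfl (by omega) hN b ν hbν s a).eq]
    exact hG.inc 1 2 le_rfl (by omega) hN b ν hbν s a (nin_swap has)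

/-- Step B: `E_ν E_l E_Y`, `ν ≤ Y`, `l` not in `Y` -/
theorem stepB (hN : 2 ≤ N) (hG : Cal G) (hK : Key₁ G)
    (l ν : Gr F (Fin (N + 1)) 2) (z : Gr F (Fin (N + 1)) 1) (hzl : z.1 ≤ l.1)
    (hzν : z.1 ≤ ν.1) (d : ℕ) : ∀ j, 2 ≤ j → j + d = N → ∀ Y : Gr F (Fin (N + 1)) j,
    ν.1 ≤ Y.1 → ¬ l.1 ≤ Y.1 → ∀ u g a, Nin In u a → G 2 ν u * G 2 l g * G j Y a = 0 := by
  induction d with
  | zero =>
    intro j hj hjN Y hνY hlY u g a h
    obtain rfl : j = N := by omega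
    have h1 := stepA hN hG hK Y l ν z hzl hzν hνY hlY (star a) (star g) (star u) ?_
    · have h2 := congrArg star h1
      simpa only [star_mul, map_star, star_star, star_zero, mul_assoc] using h2
    · intro x hx y hy
      rw [tsupport_star] at hx hy
      exact h x hx y hy
  | succ d ih =>
    intro j hj hjN Y hνY hlY u g a h
    have hP : finrank F ↥(l.1 ⊔ Y.1) = j + 1 :=
      rank_join' l Y z hzl (hzν.trans hνY) hlY
    let P : Gr F (Fin (N + 1)) (j + 1) := ⟨l.1 ⊔ Y.1, hP⟩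
    have hlP : l.1 ≤ P.1 := le_sup_left
    have hYP : Y.1 ≤ P.1 := le_sup_right
    obtain ⟨Q, hYQ, hQP⟩ := exists_other Y P hYP (by rw [Fintype.card_fin]; omega)
    have hlQ : ¬ l.1 ≤ Q.1 := fun hlQ => hQP (join_uniq l Y hlY Q P hlQ hYQ hlP hYP)
    have hνP := hνY.trans hYP
    refine join (I₁ := fun L Z => In L Z) (I₂ := fun L Z => In L Z) (J := fun L Y => In L Y)
      in_closed in_closed
      (fun x y hxy z z' h1 h2 h3 h4 => join_uniq x y hxy z z' h1 h2 h3 h4)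
      (G 2 ν) (G j Y) (G 2 l g) (G (j + 1) P) (G (j + 1) Q)
      (fun u v => hG.com 2 (j + 1) (by omega) (by omega) (by omega) ν P hνP u v)
      (fun a v => hG.com j (j + 1) (by omega) (by omega) (by omega) Y P hYP a v)
      (fun v => hG.com 2 (j + 1) (by omega) (by omega) (by omega) l P hlP g v)
      (fun a s => hG.com j (j + 1) (by omega) (by omega) (by omega) Y Q hYQ a s)
      (fun u v huv => hG.inc 2 (j + 1) (by omega) (by omega) (by omega) ν P hνP u v huv)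
      (fun a v hav => hG.inc j (j + 1) (by omega) (by omega) (by omega) Y P hYP a v hav)
      (fun a s has => hG.inc j (j + 1) (by omega) (by omega) (by omega) Y Q hYQ a s has)
      (hG.agr j (by omega) (by omega) P Q hQP.symm ⟨Y, hYP, hYQ⟩) (D := univ) isOpen_univ
      (fun u s _ hus => ih (j + 1) (by omega) (by omega) Q (hνY.trans hYQ) hlQ u g s hus) u a
      (subset_univ _) h

/-- lines with a common point commute -/
theorem lines_comm (hN : 2 ≤ N) (hG : Cal G) (hK : Key₁ G) (l ν : Gr F (Fin (N + 1)) 2)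
    (z : Gr F (Fin (N + 1)) 1) (hzl : z.1 ≤ l.1) (hzν : z.1 ≤ ν.1) (g f) :
    Commute (G 2 l g) (G 2 ν f) := by
  by_cases hl : l = ν
  · subst hl
    exact hG.com 2 2 (by omega) le_rfl hN l l le_rfl g f
  · refine comm_of_key (G 2 ν) (G 2 l) (fun u f a huf hua => ?_) g f
    refine stepB hN hG hK l ν z hzl hzν (N - 2) 2 le_rfl (by omega) ν le_rfl
      (fun hle => hl (eq_of_le₀ hle)) u f a ?_
    intro x hx y hy hxy
    have : x = y := eq_of_le₀ hxy
    subst this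
    exact disjoint_left.1 hua hx hy

/-- what commutes with two lines through `z` commutes with `z` -/
theorem comm_point (hN : 2 ≤ N) (hG : Cal G) (T : K →L[ℂ] K) (l l' : Gr F (Fin (N + 1)) 2)
    (z : Gr F (Fin (N + 1)) 1) (hzl : z.1 ≤ l.1) (hzl' : z.1 ≤ l'.1) (hll : l ≠ l')
    (hT : ∀ f, Commute T (G 2 l f)) (hT' : ∀ f, Commute T (G 2 l' f)) (f) :
    Commute T (G 1 z f) := by
  have h0 : ∀ u a : C(Gr k (Fin (N + 1)) 1, ℂ), Disjoint (tsupport ⇑u) (tsupport ⇑a) →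
      G 1 z u * T * G 1 z a = 0 := by
    intro u a hua
    refine join (I₁ := fun L Z => In L Z) (I₂ := fun L Z => In L Z) (J := fun L Y => In L Y)
      in_closed in_closed
      (fun x y hxy z z' h1 h2 h3 h4 => join_uniq x y hxy z z' h1 h2 h3 h4)
      (G 1 z) (G 1 z) T (G 2 l) (G 2 l')
      (fun u v => hG.com 1 2 (by omega) (by omega) (by omega) z l hzl u v)
      (fun a v => hG.com 1 2 (by omega) (by omega) (by omega) z l hzl a v)
      hT
      (fun a s => hG.com 1 2 (by omega) (by omega) (by omega) z l' hzl' a s)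
      (fun u v huv => hG.inc 1 2 (by omega) (by omega) (by omega) z l hzl u v huv)
      (fun a v hav => hG.inc 1 2 (by omega) (by omega) (by omega) z l hzl a v hav)
      (fun a s has => hG.inc 1 2 (by omega) (by omega) (by omega) z l' hzl' a s has)
      (hG.agr 1 le_rfl (by omega) l l' hll ⟨z, hzl, hzl'⟩) (D := univ) isOpen_univ
      (fun u s _ hus => ?_) u a (subset_univ _) ?_
    · rw [mul_assoc, (hT' s).eq, ← mul_assoc,
        hG.inc 1 2 (by omega) (by omega) (by omega) z l' hzl' u s hus, zero_mul]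
    · intro x hx y hy hxy
      have : x = y := eq_of_le₀ hxy
      subst this
      exact disjoint_left.1 hua hx hy
  have h3 := Vale.Agent.P092.H218.loc_op (G 1 z) (G 1 z) T (fun u a hua => by
    have := h0 u a hua
    rw [mul_assoc] at this
    exact this) f
  exact h3

/-- points commute with lines -/
theorem point_line (hN : 2 ≤ N) (hG : Cal G) (hK : Key₁ G) (a : Gr F (Fin (N + 1)) 1)
    (l : Gr F (Fin (N + 1)) 2) (f g) : Commute (G 1 a f) (G 2 l g) := by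
  by_cases hal : a.1 ≤ l.1
  · exact hG.com 1 2 le_rfl (by omega) hN a l hal f g
  · obtain ⟨c, hcl, -⟩ := exists_pt (X := l.1) (Y := a.1) (not_le_of_lt (by norm_num))
    obtain ⟨c', hcl', hcc⟩ := exists_pt (X := l.1) (Y := c.1) (not_le_of_lt (by norm_num))
    have hac : a ≠ c := fun h => hal (h ▸ hcl)
    have hac' : a ≠ c' := fun h => hal (h ▸ hcl')
    obtain ⟨ν, haν, hcν⟩ := exists_line a c hac
    obtain ⟨ν', haν', hcν'⟩ := exists_line a c' hac'
    have hνν : ν ≠ ν' := by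
      rintro rfl
      refine hal ?_
      rw [join_uniq c' c hcc l ν hcl' hcl hcν' hcν]
      exact haν
    exact (comm_point hN hG (G 2 l g) ν ν' a haν haν' hνν
      (fun f => lines_comm hN hG hK l ν c hcl hcν g f)
      (fun f => lines_comm hN hG hK l ν' c' hcl' hcν' g f) f).symm

/-- **all points commute** -/
theorem points_comm (hN : 2 ≤ N) (hG : Cal G) (hK : Key₁ G) (a b : Gr F (Fin (N + 1)) 1)
    (f g) : Commute (G 1 a f) (G 1 b g) := by
  obtain ⟨l, l', hll, hbl, hbl'⟩ := exists_two_lines b (by rw [Fintype.card_fin]; omega)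
  exact comm_point hN hG (G 1 a f) l l' b hbl hbl' hll
    (fun s => point_line hN hG hK a l f s) (fun s => point_line hN hG hK a l' f s) g

end chain

end Vale.Agent.P092.H218.NC
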