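import Vale.Agent.P092.H218.NEndP
import Vale.Agent.P092.H411.ResX

/-!
P092 (helper218), Team N, block [N-GAPB] (3b) with a finite set `A` of classes of gaps; the classes
off `A` are tight along the chain (products of groups). `A = univ`: `NEndP`.
-/

set_option linter.all false

open Filter Topology

namespace Vale.Agent.P092.H218.NR

open Vale.Agent.P092.H200 Vale.Agent.P092.H538 Vale.Agent.P092.H553 Vale.Agent.P092.H761
open Vale.Agent.P092.H515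

section fewA

variable {Γ 𝔾 J : Type} [Group Γ] [DecidableEq Γ] [Group 𝔾] [Fintype J] [DecidableEq J] {t : ℝ}
  {mass : 𝔾 → (Γ → ℝ) → ℝ} {Cpt : Set 𝔾 → Prop} {Ping : (p : ℕ) → (Fin p → 𝔾) → Prop}
  {r : ℕ} {gap : J → Γ → ℝ} {cl : J → Fin r} {m : ℕ} {b : Fin m → ℕ → 𝔾} {𝒦 : Fin m → Set 𝔾}

theorem ttn_iter (h : SharpData t mass Cpt Ping) (hg : Gaps gap cl)
    (hgeo : ∀ θ : Finset J, θ.Nonempty → (∀ i ∈ θ, ∀ j, cl i = cl j → j ∈ θ) → Geo gap θ)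
    (hch : GChain Cpt Ping m b 𝒦) {j n : ℕ} (hT : TTn mass gap cl b j n) :
    ∀ i, j + i ≤ m → TTn mass gap cl b (j + i) (n + i) := by
  intro i
  induction i with
  | zero => intro _; exact hT
  | succ i ih =>
    intro hi
    have h1 : j + i < m := by omega
    exact ttn_step h hg hgeo hch h1 (ih h1.le)

/-- `few_big` with tight classes off `A`. -/
theorem few_bigA (h : SharpData t mass Cpt Ping) (hg : Gaps gap cl)
    (hgeo : ∀ θ : Finset J, θ.Nonempty → (∀ i ∈ θ, ∀ j, cl i = cl j → j ∈ θ) → Geo gap θ)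
    (hch : GChain Cpt Ping m b 𝒦) {A : Finset (Fin r)}
    (hA : ∀ ε : ℝ, 0 < ε → ∃ R : ℝ, ∀ u, HS b m u →
      mass u (ind fun g => ∃ a, a ∉ A ∧ a ∈ big gap cl R g) ≤ ε)
    {j n : ℕ} (hj : j ≤ m) (hn : A.card < n + (m - j)) {ε : ℝ} (hε : 0 < ε) :
    ∃ R : ℝ, ∀ w, HS b j w → mass w (ind fun g => n ≤ (big gap cl R g).card) ≤ ε := by
  classical
  by_contra hcon
  push Not at hcon
  obtain ⟨δ, hδ⟩ : ∃ δ : ℝ, δ = ε / (2 ^ r + 1) := ⟨_, rfl⟩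
  have hδ0 : 0 < δ := by rw [hδ]; positivity
  have key : ∀ R : ℝ, ∃ Θ : Finset (Fin r), n ≤ Θ.card ∧ ∃ w, HS b j w ∧
      δ ≤ mass w (ind fun g => Θ ⊆ big gap cl R g) := by
    intro R
    obtain ⟨w, hw, h1⟩ := hcon R
    by_contra hno
    push Not at hno
    have h2 := h.union w (Finset.univ.filter fun Θ : Finset (Fin r) => n ≤ Θ.card)
      (fun g => n ≤ (big gap cl R g).card) (fun Θ g => Θ ⊆ big gap cl R g)
      fun g hg' => ⟨big gap cl R g, by simpa using hg', subset_rfl⟩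
    have h3 : ∑ Θ ∈ Finset.univ.filter (fun Θ : Finset (Fin r) => n ≤ Θ.card),
        mass w (ind fun g => Θ ⊆ big gap cl R g) ≤
        ∑ Θ ∈ Finset.univ.filter (fun Θ : Finset (Fin r) => n ≤ Θ.card), δ := by
      refine Finset.sum_le_sum fun Θ hΘ => ?_
      rw [Finset.mem_filter] at hΘ
      exact (hno Θ hΘ.2 w hw).le
    have h4 : ((Finset.univ.filter fun Θ : Finset (Fin r) => n ≤ Θ.card).card : ℝ) ≤ 2 ^ r := by
      have h5 := Finset.card_le_univ (Finset.univ.filter fun Θ : Finset (Fin r) => n ≤ Θ.card)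
      rw [Fintype.card_finset, Fintype.card_fin] at h5
      exact_mod_cast h5
    rw [Finset.sum_const, nsmul_eq_mul] at h3
    have h6 : ((Finset.univ.filter fun Θ : Finset (Fin r) => n ≤ Θ.card).card : ℝ) * δ ≤
        2 ^ r * δ := mul_le_mul_of_nonneg_right h4 hδ0.le
    have h7 : 2 ^ r * δ < ε := by
      rw [hδ, mul_div_assoc', div_lt_iff₀ (by positivity)]
      nlinarith
    linarith
  choose Θ hΘ w hw hm using fun k : ℕ => key k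
  obtain ⟨Θ0, hΘ0⟩ := Finite.exists_infinite_fiber Θ
  have hinf : (Θ ⁻¹' {Θ0}).Infinite := Set.infinite_coe_iff.1 hΘ0
  obtain ⟨k0, hk0⟩ := hinf.nonempty
  have hk0' : Θ k0 = Θ0 := hk0
  have hT : TTn mass gap cl b j n := by
    refine ⟨δ, Θ0, hδ0, by rw [← hk0']; exact hΘ k0, fun R => ?_⟩
    obtain ⟨k1, hk1⟩ := exists_nat_ge R
    obtain ⟨k, hk, hk2⟩ := hinf.exists_gt k1
    have hk' : Θ k = Θ0 := hk
    refine ⟨w k, hw k, (hm k).trans ?_⟩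
    rw [hk']
    refine h.ind_mono (w k) fun g hg' => hg'.trans (big_anti ?_ g)
    have : (k1 : ℝ) ≤ k := by exact_mod_cast hk2.le
    linarith
  obtain ⟨c, Θ, hc, hcard, hΘ⟩ := ttn_iter h hg hgeo hch hT (m - j) (by omega)
  have e : j + (m - j) = m := by omega
  rw [e] at hΘ
  obtain ⟨R, hR⟩ := hA (c / 2) (half_pos hc)
  obtain ⟨u, hu1, hu2⟩ := hΘ R
  have h3 := hR u hu1
  have h4 : ∃ x ∈ Θ, x ∉ A := by
    by_contra hno
    push Not at hno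
    have := Finset.card_le_card (show Θ ⊆ A from hno)
    omega
  obtain ⟨x, hx1, hx2⟩ := h4
  have h5 : mass u (ind fun g => Θ ⊆ big gap cl R g) ≤
      mass u (ind fun g => ∃ a, a ∉ A ∧ a ∈ big gap cl R g) :=
    h.ind_mono u fun g hg' => ⟨x, hx2, hg' hx1⟩
  linarith

end fewA

section fin

variable {Γ 𝔾 S J : Type} [Group Γ] [DecidableEq Γ] [Group 𝔾] [Group S] [Fintype J] [DecidableEq J]
  {t : ℝ} {mass : 𝔾 → (Γ → ℝ) → ℝ} {Cpt : Set 𝔾 → Prop} {Ping : (p : ℕ) → (Fin p → 𝔾) → Prop}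
  {r : ℕ} {gap : J → Γ → ℝ} {cl : J → Fin r} {z : ℕ → 𝔾} {σ : S →* 𝔾} {U : Ultrafilter ℕ}
  {χ : ℕ → Γ → ℝ} {i₀ : J} {μ : ℝ} {A : Finset (Fin r)}

/-- Lower bound: at most two large classes of gaps. -/
theorem lm_lowA (h : SharpData t mass Cpt Ping) (hC : Cut gap i₀ U χ)
    (hlim : Tendsto (fun N => mass (z N) (χ N)) U (𝓝 μ)) {c : 𝔾} (hc : ∀ N, z N * c = c * z N)
    {F : Γ → ℝ} (hF : ∀ g, 0 ≤ F g ∧ F g ≤ 1) {T ε R0 δ : ℝ} (hε0 : 0 ≤ ε) (hε1 : ε ≤ 1)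
    (hT : ∀ g, T ≤ gap i₀ g → ((∀ x ∈ A, x < cl i₀ → x ∉ big gap cl R0 g) ∨
      (∀ x ∈ A, cl i₀ < x → x ∉ big gap cl R0 g)) → 1 - ε ≤ F g)
    (h3 : ∀ N, mass (z N * c) (ind fun g => 3 ≤ (big gap cl R0 g).card) ≤ δ) :
    (1 - ε) * μ - δ ≤ lm mass U z χ c F := by
  classical
  have hFb : ∀ g, |F g| ≤ 1 := fun g => by rw [abs_of_nonneg (hF g).1]; exact (hF g).2
  have h1 := one_tendsto h hC hlim hc
  have h2 : Tendsto (fun N => (1 - ε) * mass (z N * c) (χ N) - δ) U (𝓝 ((1 - ε) * μ - δ)) :=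
    (h1.const_mul _).sub_const _
  refine le_of_tendsto_of_tendsto h2 (lm_tendsto h hC c hFb) ?_
  filter_upwards [hC.large (max T R0)] with N hN
  obtain ⟨q, hq⟩ : ∃ q : Γ → ℝ, q = ind fun g => 3 ≤ (big gap cl R0 g).card := ⟨_, rfl⟩
  have hqb : ∀ g, |q g| ≤ 1 := fun g => by rw [hq]; exact abs_ind_le _ _
  have hb1 : ∀ g, |(1 - ε) * χ N g| ≤ 1 := fun g => by
    rw [_root_.abs_mul, abs_of_nonneg (by linarith : 0 ≤ 1 - ε)]
    exact mul_le_one₀ (by linarith) (abs_nonneg _) (hC.abs N g)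
  have hb2 : ∀ g, |(-1 : ℝ) * q g| ≤ 1 := fun g => by
    rw [_root_.abs_mul, abs_neg, abs_one, one_mul]; exact hqb g
  have e1 : mass (z N * c) (fun g => (1 - ε) * χ N g + (-1) * q g) =
      (1 - ε) * mass (z N * c) (χ N) + (-1) * mass (z N * c) q := by
    rw [h.add _ _ _ 1 hb1 hb2, h.smul _ _ 1 _ (hC.abs N), h.smul _ _ 1 _ hqb]
  have e2 : mass (z N * c) (fun g => (1 - ε) * χ N g + (-1) * q g) ≤
      mass (z N * c) (fun g => χ N g * F g) := by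
    refine h.mono _ _ _ 2 (fun g => ?_) (fun g => ?_) (fun g => ?_)
    · refine (abs_add_le _ _).trans ?_
      have := hb1 g
      have := hb2 g
      linarith
    · exact (hC.mul_abs hFb N g).trans (by norm_num)
    · by_cases h0 : χ N g = 0
      · rw [h0, mul_zero, zero_mul, zero_add, hq]
        have := ind_nonneg (fun g => 3 ≤ (big gap cl R0 g).card) g
        linarith
      · have hlarge := hN g h0
        have hχ0 := (hC.mem N g).1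
        have hχ1 := (hC.mem N g).2
        have hF0 := (hF g).1
        by_cases h4 : 3 ≤ (big gap cl R0 g).card
        · rw [hq, ind_pos (P := fun g => 3 ≤ (big gap cl R0 g).card) h4]
          nlinarith [mul_nonneg hχ0 hF0]
        · rw [hq, ind_neg (P := fun g => 3 ≤ (big gap cl R0 g).card) h4, mul_zero, add_zero,
            mul_comm]
          refine mul_le_mul_of_nonneg_left (hT g ((le_max_left _ _).trans hlarge) ?_) hχ0
          by_contra hcon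
          push Not at hcon
          obtain ⟨⟨x, -, hx1, hx2⟩, ⟨y, -, hy1, hy2⟩⟩ := hcon
          have hi : cl i₀ ∈ big gap cl R0 g :=
            mem_big.mpr ⟨i₀, rfl, (le_max_right _ _).trans hlarge⟩
          refine h4 ?_
          have hsub : ({x, cl i₀, y} : Finset (Fin r)) ⊆ big gap cl R0 g := by
            intro a ha
            simp only [Finset.mem_insert, Finset.mem_singleton] at ha
            rcases ha with rfl | rfl | rfl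
            · exact hx2
            · exact hi
            · exact hy2
          refine le_trans ?_ (Finset.card_le_card hsub)
          rw [Finset.card_insert_of_notMem, Finset.card_insert_of_notMem,
            Finset.card_singleton]
          · rw [Finset.mem_singleton]; exact hy1.ne
          · simp only [Finset.mem_insert, Finset.mem_singleton, not_or]
            exact ⟨hx1.ne, (hx1.trans hy1).ne⟩
  have h5 := h3 N
  rw [← hq] at h5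
  linarith

/-- Upper bound: a set where all gaps are large. -/
theorem lm_upA (h : SharpData t mass Cpt Ping) (hC : Cut gap i₀ U χ)
    (hlim : Tendsto (fun N => mass (z N) (χ N)) U (𝓝 μ)) {c : 𝔾} (hc : ∀ N, z N * c = c * z N)
    {F : Γ → ℝ} (hF : ∀ g, 0 ≤ F g ∧ F g ≤ 1) {ε R1 R : ℝ} (hε0 : 0 ≤ ε) (hε1 : ε ≤ 1)
    (hR1 : ∀ g, (∀ x ∈ A, x ∈ big gap cl R1 g) → F g ≤ ε) (hR : R1 ≤ R) :
    lm mass U z χ c F ≤
      μ - (1 - ε) * lm mass U z χ c (ind fun g => ∀ x ∈ A, x ∈ big gap cl R g) := by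
  classical
  have hFb : ∀ g, |F g| ≤ 1 := fun g => by rw [abs_of_nonneg (hF g).1]; exact (hF g).2
  obtain ⟨q, hq⟩ : ∃ q : Γ → ℝ, q = ind fun g => ∀ x ∈ A, x ∈ big gap cl R g := ⟨_, rfl⟩
  have hqb : ∀ g, |q g| ≤ 1 := fun g => by rw [hq]; exact abs_ind_le _ _
  rw [← hq]
  have h1 := one_tendsto h hC hlim hc
  have h2 : Tendsto (fun N => mass (z N * c) (χ N) - (1 - ε) * mass (z N * c) (fun g => χ N g * q g))
      U (𝓝 (μ - (1 - ε) * lm mass U z χ c q)) :=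
    h1.sub ((lm_tendsto h hC c hqb).const_mul _)
  refine le_of_tendsto_of_tendsto' (lm_tendsto h hC c hFb) h2 fun N => ?_
  have hb1 : ∀ g, |(-(1 - ε)) * (χ N g * q g)| ≤ 1 := fun g => by
    rw [_root_.abs_mul, abs_neg, abs_of_nonneg (by linarith : 0 ≤ 1 - ε)]
    exact mul_le_one₀ (by linarith) (abs_nonneg _) (hC.mul_abs hqb N g)
  have e1 : mass (z N * c) (fun g => χ N g + (-(1 - ε)) * (χ N g * q g)) =
      mass (z N * c) (χ N) + (-(1 - ε)) * mass (z N * c) (fun g => χ N g * q g) := by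
    rw [h.add _ _ _ 1 (hC.abs N) hb1, h.smul _ _ 1 _ (hC.mul_abs hqb N)]
  have e2 : mass (z N * c) (fun g => χ N g * F g) ≤
      mass (z N * c) (fun g => χ N g + (-(1 - ε)) * (χ N g * q g)) := by
    refine h.mono _ _ _ 2 (fun g => ?_) (fun g => ?_) (fun g => ?_)
    · exact (hC.mul_abs hFb N g).trans (by norm_num)
    · refine (abs_add_le _ _).trans ?_
      have := hC.abs N g
      have := hb1 g
      linarith
    · have hχ0 := (hC.mem N g).1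
      by_cases h4 : ∀ x ∈ A, x ∈ big gap cl R g
      · rw [hq, ind_pos (P := fun g => ∀ x ∈ A, x ∈ big gap cl R g) h4]
        have h5 := hR1 g fun x hx => big_anti hR g (h4 x hx)
        nlinarith
      · rw [hq, ind_neg (P := fun g => ∀ x ∈ A, x ∈ big gap cl R g) h4]
        have := (hF g).2
        nlinarith
  linarith

/-- Elements of compact sets do not make two classes of gaps large. -/
theorem lm_cptA (h : SharpData t mass Cpt Ping) (hg : Gaps gap cl) (hC : Cut gap i₀ U χ)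
    {𝒦 : Set 𝔾} (hK : Cpt 𝒦) (h1 : 1 ∈ 𝒦) (hr : 2 ≤ A.card)
    (hlev1 : ∀ ε : ℝ, 0 < ε → ∃ R : ℝ, ∀ N, mass (z N) (ind fun g => 2 ≤ (big gap cl R g).card) ≤ ε)
    {ε : ℝ} (hε : 0 < ε) : ∃ R0 : ℝ, ∀ R, R0 ≤ R → ∀ c ∈ 𝒦, (∀ N, z N * c = c * z N) →
      lm mass U z χ c (ind fun g => ∀ x ∈ A, x ∈ big gap cl R g) ≤ ε := by
  classical
  obtain ⟨F, C, hC0, hF⟩ := h.unif 𝒦 hK (ε / 2) (by positivity)
  obtain ⟨δ, hδ⟩ : ∃ δ : ℝ, δ = ε / 2 / (C + 1) := ⟨_, rfl⟩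
  have hδ0 : 0 < δ := by rw [hδ]; positivity
  obtain ⟨R', hR'⟩ := hlev1 δ hδ0
  choose Cq hCq using hg.quasi
  obtain ⟨CF, hCF⟩ : ∃ CF : ℝ, ∀ a ∈ F, ∀ b ∈ F, Cq a b ≤ CF := by
    refine ⟨∑ a ∈ F, ∑ b ∈ F, |Cq a b|, fun a ha b hb => (le_abs_self _).trans ?_⟩
    refine le_trans ?_ (Finset.single_le_sum (f := fun a => ∑ b ∈ F, |Cq a b|)
      (fun a _ => Finset.sum_nonneg fun b _ => abs_nonneg _) ha)
    exact Finset.single_le_sum (f := fun b => |Cq a b|) (fun b _ => abs_nonneg _) hb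
  refine ⟨R' + CF, fun R hR c hc hcomm => ?_⟩
  have hqb : ∀ g, |ind (fun g => ∀ x ∈ A, x ∈ big gap cl R g) g| ≤ 1 := fun g => abs_ind_le _ _
  refine le_of_tendsto' (lm_tendsto h hC c hqb) fun N => ?_
  have e1 : mass (z N * c) (fun g => χ N g * ind (fun g => ∀ x ∈ A, x ∈ big gap cl R g) g) ≤
      mass (z N * c) (ind fun g => ∀ x ∈ A, x ∈ big gap cl R g) := by
    refine h.mono _ _ _ 1 (hC.mul_abs hqb N) hqb fun g => ?_
    exact mul_le_of_le_one_left (ind_nonneg _ _) (hC.mem N g).2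
  have e2 : z N * c = c * z N * 1 := by rw [mul_one, hcomm]
  rw [e2] at e1
  rw [e2]
  refine e1.trans ((hF c hc 1 h1 (z N) _).trans ?_)
  have e3 : mass (z N) (ind fun x => ∃ a ∈ F, ∃ b ∈ F, ∀ y ∈ A, y ∈ big gap cl R (a * x * b)) ≤
      mass (z N) (ind fun g => 2 ≤ (big gap cl R' g).card) := by
    refine h.ind_mono _ fun g hg' => ?_
    obtain ⟨a, ha, b, hb, hab⟩ := hg'
    have h2 : A ⊆ big gap cl R' g := by
      intro y hy
      obtain ⟨i, hi1, hi2⟩ := mem_big.mp (hab y hy)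
      refine mem_big.mpr ⟨i, hi1, ?_⟩
      have h3 := (abs_le.mp (hCq a b i g)).2
      have h4 := hCF a ha b hb
      linarith
    have h3 := Finset.card_le_card h2
    omega
  have e4 : C * mass (z N) (ind fun x => ∃ a ∈ F, ∃ b ∈ F, ∀ y ∈ A, y ∈ big gap cl R (a * x * b)) ≤
      C * δ := mul_le_mul_of_nonneg_left (e3.trans (hR' N)) hC0
  have e5 : C * δ ≤ ε / 2 := by
    rw [hδ, mul_div_assoc', div_le_iff₀ (by positivity)]
    nlinarith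
  linarith

/-- **The contradiction.** -/
theorem no_midA (h : SharpData t mass Cpt Ping) (hg : Gaps gap cl) (hC : Cut gap i₀ U χ)
    (hμ : 0 < μ) (hlim : Tendsto (fun N => mass (z N) (χ N)) U (𝓝 μ))
    (hσ : ∀ N s, z N * σ s = σ s * z N) (hr : 2 ≤ A.card)
    (hres : ∃ c : ℝ, 0 < c ∧ ∀ R : ℝ, ∃ s : S,
      c ≤ lm mass U z χ (σ s) (ind fun g => ∀ x ∈ A, x ∈ big gap cl R g))
    {cc : Filter S} (hcc : ∀ A ∈ cc, ∃ 𝒦 : Set S, Cpt (σ '' 𝒦) ∧ 1 ∈ 𝒦 ∧ 𝒦ᶜ ⊆ A)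
    (hlev1 : ∀ ε : ℝ, 0 < ε → ∃ R : ℝ, ∀ N, mass (z N) (ind fun g => 2 ≤ (big gap cl R g).card) ≤ ε)
    {e : ℕ → S} (he : Tendsto e atTop cc)
    (hlev2 : ∀ ε : ℝ, 0 < ε → ∃ R : ℝ, ∀ N M,
      mass (z N * σ (e M)) (ind fun g => 3 ≤ (big gap cl R g).card) ≤ ε)
    (htest : ∀ ε : ℝ, 0 < ε → ∀ R0 : ℝ, ∃ F : Γ → ℝ, (∀ g, 0 ≤ F g ∧ F g ≤ 1) ∧
      (∃ T : ℝ, ∀ g, T ≤ gap i₀ g → ((∀ x ∈ A, x < cl i₀ → x ∉ big gap cl R0 g) ∨
        (∀ x ∈ A, cl i₀ < x → x ∉ big gap cl R0 g)) → 1 - ε ≤ F g) ∧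
      (∃ R1 : ℝ, ∀ g, (∀ x ∈ A, x ∈ big gap cl R1 g) → F g ≤ ε) ∧
      ∃ L : ℝ, Tendsto (fun s : S => lm mass U z χ (σ s) F) cc (𝓝 L)) : False := by
  obtain ⟨c, hc0, hres⟩ := hres
  obtain ⟨ε, hε⟩ : ∃ ε : ℝ, ε = min (1 / 2) (c / (8 * (2 + μ))) := ⟨_, rfl⟩
  have hε0 : 0 < ε := by rw [hε]; exact lt_min (by norm_num) (by positivity)
  have hε1 : ε ≤ 1 / 2 := by rw [hε]; exact min_le_left _ _
  have hε2 : ε * (2 + μ) ≤ c / 8 := by
    have : ε ≤ c / (8 * (2 + μ)) := by rw [hε]; exact min_le_right _ _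
    calc ε * (2 + μ) ≤ c / (8 * (2 + μ)) * (2 + μ) :=
          mul_le_mul_of_nonneg_right this (by positivity)
      _ = c / 8 := by field_simp
  obtain ⟨R0, hR0⟩ := hlev2 ε hε0
  obtain ⟨F, hF, ⟨T, hT⟩, ⟨R1, hR1⟩, L, hL⟩ := htest ε hε0 R0
  -- lower bound
  have hlow : (1 - ε) * μ - ε ≤ L := by
    refine ge_of_tendsto' (hL.comp he) fun M => ?_
    exact lm_lowA h hC hlim (fun N => hσ N (e M)) hF hε0.le (by linarith) hT (hR0 · M)
  -- upper bound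
  have hA : {s : S | L - ε < lm mass U z χ (σ s) F} ∈ cc := by
    have := hL.eventually (lt_mem_nhds (show L - ε < L by linarith))
    exact this
  obtain ⟨𝒦, hK1, hK2, hK3⟩ := hcc _ hA
  obtain ⟨R2, hR2⟩ := lm_cptA h hg hC (𝒦 := σ '' 𝒦) hK1 ⟨1, hK2, map_one σ⟩ hr hlev1
    (ε := c / 2) (by positivity)
  obtain ⟨s, hs⟩ := hres (max R1 R2)
  have hsK : s ∉ 𝒦 := by
    intro hsK
    have h1 := hR2 (max R1 R2) (le_max_right _ _) (σ s) ⟨s, hsK, rfl⟩ (fun N => hσ N s)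
    linarith
  have h2 : L - ε < lm mass U z χ (σ s) F := hK3 hsK
  have h3 := lm_upA h hC hlim (fun N => hσ N s) hF hε0.le (by linarith) hR1 (le_max_left R1 R2)
  have h4 : (1 - ε) * c ≤
      (1 - ε) * lm mass U z χ (σ s) (ind fun g => ∀ x ∈ A, x ∈ big gap cl (max R1 R2) g) :=
    mul_le_mul_of_nonneg_left hs (by linarith)
  nlinarith

end fin

section final

variable {Γ 𝔾 S J : Type} [Group Γ] [DecidableEq Γ] [Group 𝔾] [Group S] [Fintype J] [DecidableEq J]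
  {t : ℝ} {mass : 𝔾 → (Γ → ℝ) → ℝ} {Cpt : Set 𝔾 → Prop} {Ping : (p : ℕ) → (Fin p → 𝔾) → Prop}
  {r m : ℕ} {gap : J → Γ → ℝ} {cl : J → Fin r} {b : Fin m → ℕ → 𝔾} {𝒦 : Fin m → Set 𝔾}
  {σ : S →* 𝔾} {i₀ : J} {A : Finset (Fin r)}

/-- Start at two. -/
theorem start2A (h : SharpData t mass Cpt Ping) (hg : Gaps gap cl)
    (hgeo : ∀ θ : Finset J, θ.Nonempty → (∀ i ∈ θ, ∀ j, cl i = cl j → j ∈ θ) → Geo gap θ)
    (hch : GChain Cpt Ping m b 𝒦)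
    (hA : ∀ ε : ℝ, 0 < ε → ∃ R : ℝ, ∀ u, HS b m u →
      mass u (ind fun g => ∃ a, a ∉ A ∧ a ∈ big gap cl R g) ≤ ε) (hrm : A.card ≤ m) (hm : 0 < m)
    {ε : ℝ} (hε : 0 < ε) :
    ∃ R : ℝ, ∀ N, mass (b ⟨0, hm⟩ N) (ind fun g => 2 ≤ (big gap cl R g).card) ≤ ε := by
  obtain ⟨R, hR⟩ := few_bigA h hg hgeo hch hA (j := 1) (n := 2) hm (by omega) hε
  refine ⟨R, fun N => ?_⟩
  have h1 := hR _ (HS.step hm N HS.one)
  rwa [one_mul] at h1

/-- The input from Howe–Moore (`z N = b^N`, limits of the masses `z N * σ s` as `s → ∞` in `S`) and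
from the test functions. -/
def HMIA (mass : 𝔾 → (Γ → ℝ) → ℝ) (gap : J → Γ → ℝ) (cl : J → Fin r) (A : Finset (Fin r)) (i₀ : J) (z : ℕ → 𝔾)
    (σ : S →* 𝔾) (cc : Filter S) : Prop :=
  ∀ U : Ultrafilter ℕ, (U : Filter ℕ) ≤ atTop → ∀ τ : ℕ → ℝ, (∀ N, 0 < τ N) →
    Tendsto τ atTop atTop → ∀ ε : ℝ, 0 < ε → ∀ R0 : ℝ, ∃ F : Γ → ℝ, (∀ g, 0 ≤ F g ∧ F g ≤ 1) ∧
      (∃ T : ℝ, ∀ g, T ≤ gap i₀ g → ((∀ x ∈ A, x < cl i₀ → x ∉ big gap cl R0 g) ∨
        (∀ x ∈ A, cl i₀ < x → x ∉ big gap cl R0 g)) → 1 - ε ≤ F g) ∧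
      (∃ R1 : ℝ, ∀ g, (∀ x ∈ A, x ∈ big gap cl R1 g) → F g ≤ ε) ∧
      ∃ L : ℝ, Tendsto (fun s : S => lm mass U z (fun N => up gap {i₀} (τ N)) (σ s) F) cc (𝓝 L)

/-- The residual chain. -/
def ResidA (mass : 𝔾 → (Γ → ℝ) → ℝ) (gap : J → Γ → ℝ) (cl : J → Fin r) (A : Finset (Fin r)) (i₀ : J) (z : ℕ → 𝔾)
    (σ : S →* 𝔾) : Prop :=
  ∀ (U : Ultrafilter ℕ) (χ : ℕ → Γ → ℝ), (U : Filter ℕ) ≤ atTop → Cut gap i₀ U χ → ∀ μ : ℝ, 0 < μ →
    Tendsto (fun N => mass (z N) (χ N)) U (𝓝 μ) →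
    ∃ c : ℝ, 0 < c ∧ ∀ R : ℝ, ∃ s : S,
      c ≤ lm mass U z χ (σ s) (ind fun g => ∀ x ∈ A, x ∈ big gap cl R g)

/-- **The middle gaps are tight along `b^N`.** -/
theorem mid_tightA (h : SharpData t mass Cpt Ping) (hg : Gaps gap cl)
    (hgeo : ∀ θ : Finset J, θ.Nonempty → (∀ i ∈ θ, ∀ j, cl i = cl j → j ∈ θ) → Geo gap θ)
    (hch : GChain Cpt Ping m b 𝒦) (hm : 2 ≤ m) (hrm : A.card = m)
    (hA : ∀ ε : ℝ, 0 < ε → ∃ R : ℝ, ∀ u, HS b m u →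
      mass u (ind fun g => ∃ a, a ∉ A ∧ a ∈ big gap cl R g) ≤ ε) (h0 : 0 < m) (h1 : 1 < m)
    (hσ : ∀ N s, b ⟨0, h0⟩ N * σ s = σ s * b ⟨0, h0⟩ N)
    (hres : ResidA mass gap cl A i₀ (b ⟨0, h0⟩) σ)
    {cc : Filter S} (hcc : ∀ A ∈ cc, ∃ 𝒦 : Set S, Cpt (σ '' 𝒦) ∧ 1 ∈ 𝒦 ∧ 𝒦ᶜ ⊆ A)
    {e : ℕ → S} (he : Tendsto e atTop cc) (heb : ∀ M, σ (e M) = b ⟨1, h1⟩ M)
    (hHM : HMIA mass gap cl A i₀ (b ⟨0, h0⟩) σ cc) {ε : ℝ} (hε : 0 < ε) :
    ∃ R : ℝ, ∀ᶠ N in atTop, mass (b ⟨0, h0⟩ N) (ind fun g => R ≤ gap i₀ g) ≤ ε := by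
  classical
  by_contra hcon
  push Not at hcon
  have hcon' : ∀ k : ℕ, ∃ᶠ N in atTop,
      ε < mass (b ⟨0, h0⟩ N) (ind fun g => 2 * ((k : ℝ) + 1) ≤ gap i₀ g) := fun k => hcon _
  obtain ⟨φ, hφ, hφm⟩ := extraction_forall_of_frequently hcon'
  obtain ⟨U, hU⟩ : ∃ U : Ultrafilter ℕ, U = (hyperfilter ℕ).map φ := ⟨_, rfl⟩
  have hUt : (U : Filter ℕ) ≤ atTop := by
    rw [hU]
    exact hφ.tendsto_atTop.mono_left Nat.hyperfilter_le_atTop
  obtain ⟨ρ, hρ⟩ : ∃ ρ : ℕ → ℕ, ∀ N, ρ N = Nat.findGreatest (fun k => φ k ≤ N) N :=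
    ⟨_, fun _ => rfl⟩
  have hρφ : ∀ k, ρ (φ k) = k := by
    intro k
    rw [hρ, Nat.findGreatest_eq_iff]
    refine ⟨hφ.le_apply, fun _ => le_rfl, fun n hn _ => ?_⟩
    rw [not_le]
    exact hφ hn
  have hρt : Tendsto ρ atTop atTop := by
    refine tendsto_atTop.2 fun K => ?_
    filter_upwards [eventually_ge_atTop (φ K), eventually_ge_atTop K] with N hN1 hN2
    rw [hρ]
    exact Nat.le_findGreatest hN2 hN1
  obtain ⟨τ, hτ⟩ : ∃ τ : ℕ → ℝ, ∀ N, τ N = (ρ N : ℝ) + 1 := ⟨_, fun _ => rfl⟩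
  have hτ0 : ∀ N, 0 < τ N := fun N => by rw [hτ]; positivity
  have hτt : Tendsto τ atTop atTop := by
    have h1 : Tendsto (fun N => (ρ N : ℝ) + 1) atTop atTop :=
      tendsto_atTop_add_const_right _ _ (tendsto_natCast_atTop_atTop.comp hρt)
    exact h1.congr fun N => (hτ N).symm
  have hC : Cut gap i₀ U (fun N => up gap {i₀} (τ N)) := cut_up hg i₀ hτ0 (hτt.mono_left hUt)
  have hup : ∀ N g, |up gap {i₀} (τ N) g| ≤ 1 := fun N g => by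
    rw [abs_of_nonneg (up_mem _ _ _ _).1]; exact (up_mem _ _ _ _).2
  obtain ⟨μ, hμ⟩ : ∃ μ : ℝ, μ = ul U (fun N => mass (b ⟨0, h0⟩ N) (up gap {i₀} (τ N))) := ⟨_, rfl⟩
  have hlim : Tendsto (fun N => mass (b ⟨0, h0⟩ N) (up gap {i₀} (τ N))) U (𝓝 μ) := by
    rw [hμ]
    exact tendsto_ul (C := 1 * t) fun N => mass_abs h _ (hup N)
  have hμ0 : ε ≤ μ := by
    refine ge_of_tendsto hlim ?_
    rw [hU, Ultrafilter.coe_map, eventually_map]
    refine Eventually.of_forall fun k => (hφm k).le.trans ?_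
    refine h.mono _ _ _ 1 (fun g => abs_ind_le _ g) (hup _) fun g => ?_
    by_cases hk : 2 * ((k : ℝ) + 1) ≤ gap i₀ g
    · rw [ind_pos (P := fun g => 2 * ((k : ℝ) + 1) ≤ gap i₀ g) hk, up_eq_one (hτ0 _)]
      intro j hj
      rw [Finset.mem_singleton] at hj
      rw [hj, hτ, hρφ]
      exact hk
    · rw [ind_neg (P := fun g => 2 * ((k : ℝ) + 1) ≤ gap i₀ g) hk]
      exact (up_mem _ _ _ _).1
  have hlev1 : ∀ ε : ℝ, 0 < ε → ∃ R : ℝ, ∀ N,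
      mass (b ⟨0, h0⟩ N) (ind fun g => 2 ≤ (big gap cl R g).card) ≤ ε := fun ε hε =>
    start2A h hg hgeo hch hA hrm.le h0 hε
  have hlev2 : ∀ ε : ℝ, 0 < ε → ∃ R : ℝ, ∀ N M,
      mass (b ⟨0, h0⟩ N * σ (e M)) (ind fun g => 3 ≤ (big gap cl R g).card) ≤ ε := by
    intro ε hε
    obtain ⟨R, hR⟩ := few_bigA h hg hgeo hch hA (j := 2) (n := 3) hm (by omega) hε
    refine ⟨R, fun N M => ?_⟩
    have h2 := hR _ (HS.step h1 M (HS.step h0 N HS.one))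
    rwa [one_mul, ← heb] at h2
  exact no_midA h hg hC (hε.trans_le hμ0) hlim hσ (by omega) (hres U _ hUt hC μ (hε.trans_le hμ0) hlim)
    hcc hlev1 he hlev2 (hHM U hUt τ hτ0 hτt)

/-- **[N-GAPB], abstract form.** The two sets of the position condition. -/
theorem pos_tightA (h : SharpData t mass Cpt Ping) (hg : Gaps gap cl)
    (hgeo : ∀ θ : Finset J, θ.Nonempty → (∀ i ∈ θ, ∀ j, cl i = cl j → j ∈ θ) → Geo gap θ)
    (hch : GChain Cpt Ping m b 𝒦) (hm : 2 ≤ m) (hrm : A.card = m)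
    (hA : ∀ ε : ℝ, 0 < ε → ∃ R : ℝ, ∀ u, HS b m u →
      mass u (ind fun g => ∃ a, a ∉ A ∧ a ∈ big gap cl R g) ≤ ε) (h0 : 0 < m) (h1 : 1 < m)
    (hσ : ∀ N s, b ⟨0, h0⟩ N * σ s = σ s * b ⟨0, h0⟩ N)
    {Mid : J → Prop} (hres : ∀ i₀, Mid i₀ → ResidA mass gap cl A i₀ (b ⟨0, h0⟩) σ)
    {cc : Filter S} (hcc : ∀ A ∈ cc, ∃ 𝒦 : Set S, Cpt (σ '' 𝒦) ∧ 1 ∈ 𝒦 ∧ 𝒦ᶜ ⊆ A)
    {e : ℕ → S} (he : Tendsto e atTop cc) (heb : ∀ M, σ (e M) = b ⟨1, h1⟩ M)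
    (hHM : ∀ i₀, Mid i₀ → HMIA mass gap cl A i₀ (b ⟨0, h0⟩) σ cc) {G2 H2 : Γ → ℝ}
    (hGH : ∀ R : ℝ, ∃ ρ : ℝ, ∀ g, ρ < G2 g → ρ < H2 g →
      (2 ≤ (big gap cl R g).card ∨ ∃ i, Mid i ∧ R ≤ gap i g)) {ε : ℝ} (hε : 0 < ε) :
    ∃ ρ : ℝ, ∀ᶠ N in atTop, mass (b ⟨0, h0⟩ N) (ind fun g => ρ < G2 g ∧ ρ < H2 g) ≤ ε := by
  classical
  obtain ⟨δ, hδ⟩ : ∃ δ : ℝ, δ = ε / 2 / ((Fintype.card J : ℝ) + 1) := ⟨_, rfl⟩
  have hδ0 : 0 < δ := by rw [hδ]; positivity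
  obtain ⟨R1, hR1⟩ := start2A h hg hgeo hch hA hrm.le h0 (half_pos hε)
  have key : ∀ i : J, ∃ R : ℝ, Mid i → ∀ᶠ N in atTop,
      mass (b ⟨0, h0⟩ N) (ind fun g => R ≤ gap i g) ≤ δ := by
    intro i
    by_cases hi : Mid i
    · obtain ⟨R, hR⟩ := mid_tightA h hg hgeo hch hm hrm hA h0 h1 hσ (hres i hi) hcc he heb (hHM i hi) hδ0
      exact ⟨R, fun _ => hR⟩
    · exact ⟨0, fun h => absurd h hi⟩
  choose Ri hRi using key
  obtain ⟨R, hR⟩ : ∃ R : ℝ, R = max R1 (∑ i, |Ri i|) := ⟨_, rfl⟩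
  have hRR : ∀ i, Ri i ≤ R := fun i => by
    rw [hR]
    refine le_trans ((le_abs_self _).trans ?_) (le_max_right _ _)
    exact Finset.single_le_sum (f := fun i => |Ri i|) (fun i _ => abs_nonneg _) (Finset.mem_univ i)
  obtain ⟨ρ, hρ⟩ := hGH R
  refine ⟨ρ, ?_⟩
  have hev : ∀ᶠ N in atTop, ∀ i, Mid i → mass (b ⟨0, h0⟩ N) (ind fun g => Ri i ≤ gap i g) ≤ δ := by
    rw [eventually_all]
    intro i
    by_cases hi : Mid i
    · filter_upwards [hRi i hi] with N hN _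
      exact hN
    · exact Eventually.of_forall fun N h => absurd h hi
  filter_upwards [hev] with N hN
  -- union bound
  obtain ⟨Q, hQ⟩ : ∃ Q : Option J → Γ → Prop, Q = fun o g =>
      match o with
      | none => 2 ≤ (big gap cl R1 g).card
      | some i => Mid i ∧ Ri i ≤ gap i g := ⟨_, rfl⟩
  have h2 := h.union (b ⟨0, h0⟩ N) (Finset.univ : Finset (Option J))
    (fun g => ρ < G2 g ∧ ρ < H2 g) Q fun g hg' => by
      rcases hρ g hg'.1 hg'.2 with h3 | ⟨i, hi, h3⟩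
      · refine ⟨none, Finset.mem_univ _, ?_⟩
        rw [hQ]
        exact h3.trans (Finset.card_le_card (big_anti (by rw [hR]; exact le_max_left _ _) g))
      · refine ⟨some i, Finset.mem_univ _, ?_⟩
        rw [hQ]
        exact ⟨hi, (hRR i).trans h3⟩
  refine h2.trans ?_
  rw [Fintype.sum_option]
  have h3 : mass (b ⟨0, h0⟩ N) (ind (Q none)) ≤ ε / 2 := by rw [hQ]; exact hR1 N
  have h4 : ∀ i, mass (b ⟨0, h0⟩ N) (ind (Q (some i))) ≤ δ := by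
    intro i
    by_cases hi : Mid i
    · refine (h.ind_mono _ fun g hg' => ?_).trans (hN i hi)
      rw [hQ] at hg'
      exact hg'.2
    · have e1 : ind (Q (some i)) = fun _ : Γ => (0 : ℝ) := by
        funext g
        refine ind_neg (P := Q (some i)) fun hg' => ?_
        rw [hQ] at hg'
        exact hi hg'.1
      rw [e1, h.zero]
      exact hδ0.le
  have h5 : ∑ i, mass (b ⟨0, h0⟩ N) (ind (Q (some i))) ≤ ε / 2 := by
    refine (Finset.sum_le_sum fun i _ => h4 i).trans ?_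
    rw [Finset.sum_const, nsmul_eq_mul, Finset.card_univ, hδ, mul_div_assoc', div_le_iff₀ (by positivity)]
    have : (0 : ℝ) ≤ Fintype.card J := by positivity
    nlinarith
  linarith

end final

/-! ### The residual chain inside `A` -/

section res

variable {Γ 𝔾 S J : Type} [Group Γ] [DecidableEq Γ] [Group 𝔾] [Group S] [Fintype J] [DecidableEq J]
  {t : ℝ} {mass : 𝔾 → (Γ → ℝ) → ℝ} {Cpt : Set 𝔾 → Prop} {Ping : (p : ℕ) → (Fin p → 𝔾) → Prop}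
  {r m : ℕ} {gap : J → Γ → ℝ} {cl : J → Fin r} {b : Fin (m + 1) → ℕ → 𝔾}
  {𝒦 : Fin (m + 1) → Set 𝔾} {bS : Fin m → ℕ → S} {𝒦S : Fin m → Set S}
  {σ : S →* 𝔾} {i₀ : J} {A : Finset (Fin r)}

theorem hs_lift (hb : ∀ j M, σ (bS j M) = b j.succ M) (N : ℕ) {j : ℕ} {s : S} (hs : HS bS j s) :
    HS b (j + 1) (b 0 N * σ s) := by
  induction hs with
  | one =>
    rw [map_one, mul_one]
    have := HS.step (b := b) (Nat.succ_pos m) N HS.one
    rw [one_mul] at this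
    exact this
  | @step j s hj M _ ih =>
    have := HS.step (b := b) (j := j + 1) (Nat.succ_lt_succ hj) M ih
    rw [map_mul, hb ⟨j, hj⟩ M, ← mul_assoc]
    exact this

theorem cut_res {U : Ultrafilter ℕ} {χ : ℕ → Γ → ℝ} (hC : Cut gap i₀ U χ) : H411.ResX.Cut U χ := ⟨hC.mem, hC.slow⟩

/-- **The residual chain**: the input `ResidA` of `pos_tightA`. -/
theorem residA_of (h : SharpData t mass Cpt Ping) (hg : Gaps gap cl)
    (hgeo : ∀ θ : Finset J, θ.Nonempty → (∀ i ∈ θ, ∀ j, cl i = cl j → j ∈ θ) → Geo gap θ)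
    (hσ : ∀ N s, b 0 N * σ s = σ s * b 0 N) (hb : ∀ j M, σ (bS j M) = b j.succ M)
    (hchS : GChain (fun 𝒦 => Cpt (σ '' 𝒦)) (fun p u => Ping p fun l => σ (u l)) m bS 𝒦S)
    (hA : ∀ ε : ℝ, 0 < ε → ∃ R : ℝ, ∀ u, HS b (m + 1) u →
      mass u (ind fun g => ∃ a, a ∉ A ∧ a ∈ big gap cl R g) ≤ ε) (hcard : A.card = m + 1) :
    ResidA mass gap cl A i₀ (b 0) σ := by
  classical
  intro U χ hU hC μ hμ hlim
  have hD := H411.ResX.resX h (cut_res hC) hσ hμ hlim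
  have hT : TTn (H411.ResX.mr mass U (b 0) χ σ) gap cl bS 0 1 :=
    H411.ResX.res_start h (cut_res hC) hσ hμ hlim i₀ hC.large
  obtain ⟨c, Θ, hc, hΘcard, hΘ⟩ := ttn_iter hD hg hgeo hchS hT m (by omega)
  rw [zero_add] at hΘ
  have hsub : Θ ⊆ A := by
    intro x hx
    by_contra hxA
    obtain ⟨R, hR⟩ := hA (c / 2) (half_pos hc)
    obtain ⟨s, hs1, hs2⟩ := hΘ R
    have h1 : H411.ResX.mr mass U (b 0) χ σ s (ind fun g => Θ ⊆ big gap cl R g) ≤ c / 2 := by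
      refine ul_le_of (H411.ResX.mr_bd h (cut_res hC) s (fun g => abs_ind_le _ g))
        (Eventually.of_forall fun N => ?_)
      refine le_trans ?_ (hR _ (hs_lift hb N hs1))
      refine h.mono _ _ _ 1 (hC.mul_abs (fun g => abs_ind_le _ g) N) (fun g => abs_ind_le _ g)
        fun g => ?_
      refine (mul_le_of_le_one_left (ind_nonneg _ _) (hC.mem N g).2).trans ?_
      by_cases hg' : Θ ⊆ big gap cl R g
      · rw [ind_pos (P := fun g => Θ ⊆ big gap cl R g) hg',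
          ind_pos (P := fun g => ∃ a, a ∉ A ∧ a ∈ big gap cl R g) ⟨x, hxA, hg' hx⟩]
      · rw [ind_neg (P := fun g => Θ ⊆ big gap cl R g) hg']
        exact ind_nonneg _ _
    linarith
  have hΘA : Θ = A := Finset.eq_of_subset_of_card_le hsub (by omega)
  refine ⟨c, hc, fun R => ?_⟩
  obtain ⟨s, _, hs⟩ := hΘ R
  refine ⟨s, ?_⟩
  rw [hΘA] at hs
  exact hs

/-- No condition off `A = univ`. -/
theorem hA_univ (h : SharpData t mass Cpt Ping) {m : ℕ} {b : Fin m → ℕ → 𝔾} :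
    ∀ ε : ℝ, 0 < ε → ∃ R : ℝ, ∀ u, HS b m u →
      mass u (ind fun g => ∃ a, a ∉ (Finset.univ : Finset (Fin r)) ∧ a ∈ big gap cl R g) ≤ ε := by
  intro ε hε
  refine ⟨0, fun u _ => ?_⟩
  have e : (ind fun g => ∃ a, a ∉ (Finset.univ : Finset (Fin r)) ∧ a ∈ big gap cl 0 g) =
      fun _ : Γ => (0 : ℝ) := by
    funext g
    refine ind_neg (P := fun g => ∃ a, a ∉ (Finset.univ : Finset (Fin r)) ∧ a ∈ big gap cl 0 g) ?_
    rintro ⟨a, ha, _⟩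
    exact ha (Finset.mem_univ a)
  rw [e, h.zero]
  exact hε.le

/-- The compactness input for the cocompact filter. -/
theorem hcc_of {𝔾 S : Type} [Group 𝔾] [TopologicalSpace 𝔾] [Group S] [TopologicalSpace S]
    {σ : S →* 𝔾} (hσc : Continuous σ) :
    ∀ A ∈ cocompact S, ∃ 𝒦 : Set S, IsCompact (σ '' 𝒦) ∧ 1 ∈ 𝒦 ∧ 𝒦ᶜ ⊆ A := by
  intro A hA
  obtain ⟨K, hK, hKA⟩ := mem_cocompact.1 hA
  refine ⟨insert 1 K, (hK.insert 1).image hσc, Set.mem_insert _ _, ?_⟩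
  exact (Set.compl_subset_compl.2 (Set.subset_insert _ _)).trans hKA

end res

/-- **[N-GAPB] (3), final abstract form** (`A = univ`: one factor; the residual chain is built in). -/
theorem pos_final {Γ 𝔾 S J : Type} [Group Γ] [DecidableEq Γ] [Group 𝔾] [Group S] [Fintype J]
    [DecidableEq J] {t : ℝ} {mass : 𝔾 → (Γ → ℝ) → ℝ} {Cpt : Set 𝔾 → Prop}
    {Ping : (p : ℕ) → (Fin p → 𝔾) → Prop} {r m : ℕ} {gap : J → Γ → ℝ} {cl : J → Fin r}
    {b : Fin (m + 1) → ℕ → 𝔾} {𝒦 : Fin (m + 1) → Set 𝔾} {bS : Fin m → ℕ → S} {𝒦S : Fin m → Set S}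
    {σ : S →* 𝔾} {A : Finset (Fin r)}
    (h : SharpData t mass Cpt Ping) (hg : Gaps gap cl)
    (hgeo : ∀ θ : Finset J, θ.Nonempty → (∀ i ∈ θ, ∀ j, cl i = cl j → j ∈ θ) → Geo gap θ)
    (hch : GChain Cpt Ping (m + 1) b 𝒦) (hm : 0 < m) (hcard : A.card = m + 1)
    (hA : ∀ ε : ℝ, 0 < ε → ∃ R : ℝ, ∀ u, HS b (m + 1) u →
      mass u (ind fun g => ∃ a, a ∉ A ∧ a ∈ big gap cl R g) ≤ ε)
    (hσ : ∀ N s, b 0 N * σ s = σ s * b 0 N) (hσi : Function.Injective σ)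
    (hb : ∀ j M, σ (bS j M) = b j.succ M) (hK : ∀ j, σ '' 𝒦S j = 𝒦 j.succ)
    {cc : Filter S} (hcc : ∀ A ∈ cc, ∃ 𝒦 : Set S, Cpt (σ '' 𝒦) ∧ 1 ∈ 𝒦 ∧ 𝒦ᶜ ⊆ A)
    (he : Tendsto (bS ⟨0, hm⟩) atTop cc) {Mid : J → Prop}
    (hHM : ∀ i₀, Mid i₀ → HMIA mass gap cl A i₀ (b 0) σ cc) {G2 H2 : Γ → ℝ}
    (hGH : ∀ R : ℝ, ∃ ρ : ℝ, ∀ g, ρ < G2 g → ρ < H2 g →
      (2 ≤ (big gap cl R g).card ∨ ∃ i, Mid i ∧ R ≤ gap i g)) {ε : ℝ} (hε : 0 < ε) :
    ∃ ρ : ℝ, ∀ᶠ N in atTop, mass (b 0 N) (ind fun g => ρ < G2 g ∧ ρ < H2 g) ≤ ε := by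
  have hchS := H411.ResX.gchain_tail hch hσi hb hK
  exact pos_tightA (b := b) (e := bS ⟨0, hm⟩) h hg hgeo hch (by omega) hcard hA
    (Nat.succ_pos m) (by omega) hσ (fun i₀ _ => residA_of h hg hgeo hσ hb hchS hA hcard) hcc he
    (fun M => hb ⟨0, hm⟩ M) hHM hGH hε

end Vale.Agent.P092.H218.NR
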