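import Vale.Agent.P092.H218.NChain

/-!
P092 (helper218), TEAM N, block [N-ALL]: all calculi of all subspaces commute, and different
positions are carried by different positions: if `X ⊄ Y` then nowhere `X' ⊆ Y'`.
-/

set_option linter.all false

open Set Topology Module

namespace Vale.Agent.P092.H218.NC

open Vale.Agent.P092.H100.Gr (Gr incG incG_closed eq_of_le)
open Vale.Agent.P092.H232 (Nin join comm_of_key two_ind split_inc)
open Vale.Agent.P092.H218 (loc mul_ap one_ap)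

section alg

variable {F : Type*} [Field F] {ι : Type*} [Fintype ι] {i j : ℕ}

/-- a subspace of dimension `i` between a point and `Y` -/
theorem exists_mid (b : Gr F ι 1) (Y : Gr F ι j) (hb : b.1 ≤ Y.1) (i : ℕ) (hi : 1 ≤ i)
    (hij : i ≤ j) : ∃ W : Gr F ι i, b.1 ≤ W.1 ∧ W.1 ≤ Y.1 := by
  induction i, hi using Nat.le_induction with
  | base => exact ⟨b, le_rfl, hb⟩
  | succ i hi ih =>
    obtain ⟨W, h1, h2⟩ := ih (by omega)
    obtain ⟨c, hc, hcW⟩ := exists_pt (X := Y.1) (Y := W.1) (not_le_of_lt (by omega))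
    exact ⟨⟨c.1 ⊔ W.1, rank_join c W hcW⟩, h1.trans le_sup_right, sup_le hc h2⟩

theorem exists_point (hj : 1 ≤ j) (Y : Gr F ι j) : ∃ b : Gr F ι 1, b.1 ≤ Y.1 := by
  have h : ¬ Y.1 ≤ (⊥ : Submodule F (ι → F)) := fun h => by
    have := Submodule.finrank_mono h
    rw [Y.2, finrank_bot] at this
    omega
  obtain ⟨b, hb, -⟩ := exists_pt h
  exact ⟨b, hb⟩

/-- two different hyperplanes of `Y` -/
theorem exists_two_sub (hj : 1 ≤ j) (Y : Gr F ι (j + 1)) :
    ∃ A B : Gr F ι j, A ≠ B ∧ A.1 ≤ Y.1 ∧ B.1 ≤ Y.1 := by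
  obtain ⟨a, ha⟩ := exists_point (by omega) Y
  obtain ⟨A, -, hA⟩ := exists_mid a Y ha j hj (by omega)
  obtain ⟨b, hb, hbA⟩ := exists_pt (X := Y.1) (Y := A.1) (not_le_of_lt (by omega))
  obtain ⟨B, hbB, hB⟩ := exists_mid b Y hb j hj (by omega)
  exact ⟨A, B, fun h => hbA (h ▸ hbB), hA, hB⟩

/-- two different `(j+1)`-spaces have at most one common `j`-space -/
theorem sub_uniq (x y : Gr F ι (j + 1)) (h : ¬ x.1 ≤ y.1) (z z' : Gr F ι j)
    (h1 : z.1 ≤ x.1) (h2 : z.1 ≤ y.1) (h3 : z'.1 ≤ x.1) (h4 : z'.1 ≤ y.1) : z = z' := by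
  by_contra hne
  have h5 : ¬ z.1 ≤ z'.1 := fun hle => hne (eq_of_le₀ hle)
  have h6 := finrank_sup_ge h5
  rw [z'.2] at h6
  have h7 : z.1 ⊔ z'.1 = x.1 := by
    refine Submodule.eq_of_le_of_finrank_le (sup_le h1 h3) ?_
    rw [x.2]; exact h6
  exact h (h7 ▸ sup_le h2 h4)

end alg

section deg

variable {X₁ X₂ Z K : Type*} [TopologicalSpace X₁] [CompactSpace X₁] [T2Space X₁]
  [TopologicalSpace X₂] [CompactSpace X₂] [T2Space X₂]
  [TopologicalSpace Z] [CompactSpace Z] [T2Space Z]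
  [NormedAddCommGroup K] [InnerProductSpace ℂ K] [CompleteSpace K]

/-- degeneracy step: if `c' ∉ e'` almost everywhere, `p` and `y` disagree, and `ξ` is carried by
`c' ∈ y'`, then `ξ = 0` -/
theorem deg_step {I₁ : X₁ → Z → Prop} {I₂ : X₂ → Z → Prop} {J : X₁ → X₂ → Prop}
    (hI₁ : IsClosed {q : X₁ × Z | I₁ q.1 q.2}) (hI₂ : IsClosed {q : X₂ × Z | I₂ q.1 q.2})
    (huniq : ∀ x y, ¬ J x y → ∀ z z', I₁ x z → I₂ y z → I₁ x z' → I₂ y z' → z = z')
    (c : C(X₁, ℂ) →⋆ₐ[ℂ] (K →L[ℂ] K)) (e : C(X₂, ℂ) →⋆ₐ[ℂ] (K →L[ℂ] K))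
    (p y : C(Z, ℂ) →⋆ₐ[ℂ] (K →L[ℂ] K))
    (hcp : ∀ u v, Commute (c u) (p v)) (hep : ∀ a v, Commute (e a) (p v))
    (hce : ∀ u a, Commute (c u) (e a)) (hcy : ∀ u s, Commute (c u) (y s))
    (hey : ∀ a s, Commute (e a) (y s)) (hpy : ∀ v s, Commute (p v) (y s))
    (icp : ∀ u v, Nin I₁ u v → c u * p v = 0) (iep : ∀ a v, Nin I₂ a v → e a * p v = 0)
    (iey : ∀ a s, Nin I₂ a s → e a * y s = 0)
    (agr : ∀ ξ, (∀ f, p f ξ = y f ξ) → ξ = 0)
    (hdeg : ∀ ζ, (∀ u a, Nin J u a → c u (e a ζ) = 0) → ζ = 0) (ξ : K)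
    (key : ∀ u s, Nin I₁ u s → c u (y s ξ) = 0) : ξ = 0 := by
  refine hdeg ξ fun u a hua => agr _ fun f => ?_
  have hl := loc p y (1 : K →L[ℂ] K) (c u (e a ξ)) (fun v s hvs => ?_) f
  · exact (by simpa using hl.symm)
  have main : p v (y s (c u (e a ξ))) = 0 := by
    refine two_ind (A := K) (S₁ := tsupport ⇑u) (S₂ := tsupport ⇑a)
      (fun u' a' => p v (y s (c u' (e a' ξ))))
      (fun u' u'' a' => by
        change p v (y s (c (u' + u'') (e a' ξ))) = _
        rw [map_add, ContinuousLinearMap.add_apply, map_add, map_add])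
      (fun u' a' a'' => by
        change p v (y s (c u' (e (a' + a'') ξ))) = _
        rw [map_add e, ContinuousLinearMap.add_apply, map_add, map_add, map_add])
      (isClosed_tsupport _).isCompact (isClosed_tsupport _).isCompact
      (fun x hx y' hy' => ?_) u a subset_rfl subset_rfl
    have hxy : ¬ J x y' := hua x hx y' hy'
    by_cases hc : ∀ z ∈ tsupport ⇑v, I₁ x z → I₂ y' z → False
    · obtain ⟨v₁, v₂, hv, O, V, hO, hxO, hV, hyV, h1, h2⟩ := split_inc hI₁ hI₂ v hc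
      refine ⟨O, V, hO, hxO, hV, hyV, fun u' a' hu' ha' => ?_⟩
      have e1 : c u' * p v₁ = 0 := icp _ _ (h1 _ hu')
      have e2 : e a' * p v₂ = 0 := iep _ _ (h2 _ ha')
      have e3 : p v₁ * (y s * (c u' * e a')) = 0 := by
        rw [← mul_assoc, (hpy v₁ s).eq, mul_assoc, ← mul_assoc (p v₁), ← (hcp u' v₁).eq, e1,
          zero_mul, mul_zero]
      have e4 : p v₂ * (y s * (c u' * e a')) = 0 := by
        rw [(hce u' a').eq, ← mul_assoc, (hpy v₂ s).eq, mul_assoc, ← mul_assoc (p v₂),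
          ← (hep a' v₂).eq, e2, zero_mul, mul_zero]
      have e5 : p v * (y s * (c u' * e a')) = 0 := by rw [hv, map_add, add_mul, e3, e4, add_zero]
      exact congrArg (fun T : K →L[ℂ] K => T ξ) e5
    · push Not at hc
      obtain ⟨z₀, hz₀, h10, h20, -⟩ := hc
      have hs : ∀ z ∈ tsupport ⇑s, I₁ x z → I₂ y' z → False := by
        intro z hz h1 h2
        rw [huniq x y' hxy z z₀ h1 h2 h10 h20] at hz
        exact disjoint_left.1 hvs hz₀ hz
      obtain ⟨s₁, s₂, hv, O, V, hO, hxO, hV, hyV, h1, h2⟩ := split_inc hI₁ hI₂ s hs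
      refine ⟨O, V, hO, hxO, hV, hyV, fun u' a' hu' ha' => ?_⟩
      have e1 : c u' (y s₁ ξ) = 0 := key _ _ (h1 _ hu')
      have e2 : e a' * y s₂ = 0 := iey _ _ (h2 _ ha')
      have e3 : y s₁ * (c u' * e a') = e a' * (c u' * y s₁) := by
        rw [(hce u' a').eq, ← mul_assoc, ← (hey a' s₁).eq, mul_assoc, (hcy u' s₁).eq]
      have e4 : y s₂ * (c u' * e a') = 0 := by
        rw [(hce u' a').eq, ← mul_assoc, ← (hey a' s₂).eq, e2, zero_mul]
      have e5 : y s (c u' (e a' ξ)) = 0 := by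
        have h3 : y s₁ (c u' (e a' ξ)) = e a' (c u' (y s₁ ξ)) :=
          congrArg (fun T : K →L[ℂ] K => T ξ) e3
        have h4 : y s₂ (c u' (e a' ξ)) = 0 := congrArg (fun T : K →L[ℂ] K => T ξ) e4
        rw [hv, map_add, ContinuousLinearMap.add_apply, h3, h4, e1, map_zero, add_zero]
      change p v (y s (c u' (e a' ξ))) = 0
      rw [e5, map_zero]
  simpa using main

end deg

section all

variable {F : Type*} [Field F] {k : Type*} [NontriviallyNormedField k] [ProperSpace k] {N : ℕ}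
  {K : Type*} [NormedAddCommGroup K] [InnerProductSpace ℂ K] [CompleteSpace K]
  {G : ∀ j, Gr F (Fin (N + 1)) j → (C(Gr k (Fin (N + 1)) j, ℂ) →⋆ₐ[ℂ] (K →L[ℂ] K))}

/-- AGR for two different `j`-spaces inside a common `(j+1)`-space -/
theorem agr_of_ne (hG : Cal G) {j : ℕ} (hj : 1 ≤ j) (hjN : j ≤ N) (A B : Gr F (Fin (N + 1)) j)
    (X : Gr F (Fin (N + 1)) (j + 1)) (hA : A.1 ≤ X.1) (hB : B.1 ≤ X.1) (h : A ≠ B) (ξ : K)
    (hξ : ∀ f, G j A f ξ = G j B f ξ) : ξ = 0 := by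
  obtain rfl | ⟨i, hi, rfl⟩ : j = 1 ∨ ∃ i, 1 ≤ i ∧ j = i + 1 := by
    rcases Nat.lt_or_ge 1 j with h1 | h1
    · exact Or.inr ⟨j - 1, by omega, by omega⟩
    · exact Or.inl (by omega)
  · exact hG.agr₁ A B h ξ hξ
  · refine hG.agr i hi (by omega) A B h ⟨⟨A.1 ⊓ B.1, ?_⟩, inf_le_left, inf_le_right⟩ ξ hξ
    have h1 := finrank_sup_ge (fun hle => h (eq_of_le₀ hle) : ¬ A.1 ≤ B.1)
    have h2 := Submodule.finrank_sup_add_finrank_inf_eq A.1 B.1
    have h3 : finrank F ↥(A.1 ⊔ B.1) ≤ finrank F X.1 := Submodule.finrank_mono (sup_le hA hB)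
    rw [X.2] at h3
    rw [A.2, B.2] at h2
    rw [B.2] at h1
    omega

/-- what commutes with two `j`-spaces of `X` commutes with `X` -/
theorem comm_up (hG : Cal G) {j : ℕ} (hj : 1 ≤ j) (hjN : j + 1 ≤ N) (T : K →L[ℂ] K)
    (A B : Gr F (Fin (N + 1)) j) (X : Gr F (Fin (N + 1)) (j + 1)) (hA : A.1 ≤ X.1)
    (hB : B.1 ≤ X.1) (hAB : A ≠ B) (hT : ∀ f, Commute T (G j A f))
    (hT' : ∀ f, Commute T (G j B f)) (f) : Commute T (G (j + 1) X f) := by
  have h0 : ∀ u a : C(Gr k (Fin (N + 1)) (j + 1), ℂ), Disjoint (tsupport ⇑u) (tsupport ⇑a) →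
      G (j + 1) X u * T * G (j + 1) X a = 0 := by
    intro u a hua
    refine join (I₁ := fun L Z => In Z L) (I₂ := fun L Z => In Z L) (J := fun L Y => In L Y)
      in_closed' in_closed'
      (fun x y hxy z z' h1 h2 h3 h4 => sub_uniq x y hxy z z' h1 h2 h3 h4)
      (G (j + 1) X) (G (j + 1) X) T (G j A) (G j B)
      (fun u v => (hG.com j (j + 1) hj (by omega) hjN A X hA v u).symm)
      (fun a v => (hG.com j (j + 1) hj (by omega) hjN A X hA v a).symm)
      hT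
      (fun a s => (hG.com j (j + 1) hj (by omega) hjN B X hB s a).symm)
      (fun u v huv => ?_) (fun a v hav => ?_) (fun a s has => ?_)
      (agr_of_ne hG hj (by omega) A B X hA hB hAB) (D := univ) isOpen_univ
      (fun u s _ hus => ?_) u a (subset_univ _) ?_
    · rw [← (hG.com j (j + 1) hj (by omega) hjN A X hA v u).eq]
      exact hG.inc j (j + 1) hj (by omega) hjN A X hA v u (nin_swap huv)
    · rw [← (hG.com j (j + 1) hj (by omega) hjN A X hA v a).eq]
      exact hG.inc j (j + 1) hj (by omega) hjN A X hA v a (nin_swap hav)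
    · rw [← (hG.com j (j + 1) hj (by omega) hjN B X hB s a).eq]
      exact hG.inc j (j + 1) hj (by omega) hjN B X hB s a (nin_swap has)
    · rw [mul_assoc, (hT' s).eq, ← mul_assoc, ← (hG.com j (j + 1) hj (by omega) hjN B X hB s u).eq,
        hG.inc j (j + 1) hj (by omega) hjN B X hB s u (nin_swap hus), zero_mul]
    · intro x hx y hy hxy
      have : x = y := eq_of_le₀ hxy
      subst this
      exact disjoint_left.1 hua hx hy
  have h3 := Vale.Agent.P092.H218.loc_op (G (j + 1) X) (G (j + 1) X) T (fun u a hua => by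
    have := h0 u a hua
    rw [mul_assoc] at this
    exact this) f
  exact h3

/-- what commutes with all points commutes with everything -/
theorem comm_all (hG : Cal G) (T : K →L[ℂ] K) (hT : ∀ c f, Commute T (G 1 c f)) (j : ℕ)
    (hj : 1 ≤ j) (hjN : j ≤ N) (Y : Gr F (Fin (N + 1)) j) (g) : Commute T (G j Y g) := by
  induction j, hj using Nat.le_induction with
  | base => exact hT Y g
  | succ j hj ih =>
    obtain ⟨A, B, hAB, hA, hB⟩ := exists_two_sub hj Y
    exact comm_up hG hj hjN T A B Y hA hB hAB (ih (by omega) A) (ih (by omega) B) g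

/-- **ALL CALCULI COMMUTE** -/
theorem all_comm (hN : 2 ≤ N) (hG : Cal G) (hK : Key₁ G) (i j : ℕ) (hi : 1 ≤ i) (hiN : i ≤ N)
    (hj : 1 ≤ j) (hjN : j ≤ N) (X : Gr F (Fin (N + 1)) i) (Y : Gr F (Fin (N + 1)) j) (f g) :
    Commute (G i X f) (G j Y g) := by
  refine comm_all hG _ (fun c h => ?_) j hj hjN Y g
  exact (comm_all hG (G 1 c h) (fun c' h' => points_comm hN hG hK c c' h h') i hi hiN X f).symm

theorem ninc_point (hN : 2 ≤ N) (hG : Cal G) (hK : Key₁ G) (c : Gr F (Fin (N + 1)) 1) (j : ℕ)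
    (hj : 1 ≤ j) (hjN : j ≤ N) (Y : Gr F (Fin (N + 1)) j) (h : ¬ c.1 ≤ Y.1) (ξ : K)
    (hξ : ∀ u v, Nin In u v → G 1 c u (G j Y v ξ) = 0) : ξ = 0 := by
  induction j, hj using Nat.le_induction generalizing ξ with
  | base =>
    refine hG.agr₁ c Y (fun he => h (he ▸ le_rfl)) ξ fun f => ?_
    have hl := loc (G 1 c) (G 1 Y) (1 : K →L[ℂ] K) ξ (fun u v huv => ?_) f
    · exact (by simpa using hl.symm)
    · have hn : Nin In u v := by
        intro x hx y hy hxy
        have : x = y := eq_of_le₀ hxy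
        subst this
        exact disjoint_left.1 huv hx hy
      simpa using hξ u v hn
  | succ j hj ih =>
    obtain ⟨a, ha⟩ := exists_point (by omega) Y
    obtain ⟨A, -, hAY⟩ := exists_mid a Y ha j hj (by omega)
    have hcA : ¬ c.1 ≤ A.1 := fun hle => h (hle.trans hAY)
    let P : Gr F (Fin (N + 1)) (j + 1) := ⟨c.1 ⊔ A.1, rank_join c A hcA⟩
    have hcP : c.1 ≤ P.1 := le_sup_left
    have hAP : A.1 ≤ P.1 := le_sup_right
    have hPY : P ≠ Y := fun he => h (he ▸ hcP)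
    refine deg_step (I₁ := fun L Z => In L Z) (I₂ := fun L Z => In L Z) (J := fun L Y => In L Y)
      in_closed in_closed
      (fun x y hxy z z' h1 h2 h3 h4 => join_uniq x y hxy z z' h1 h2 h3 h4)
      (G 1 c) (G j A) (G (j + 1) P) (G (j + 1) Y)
      (fun u v => all_comm hN hG hK _ _ le_rfl (by omega) (by omega) hjN c P u v)
      (fun u v => all_comm hN hG hK _ _ hj (by omega) (by omega) hjN A P u v)
      (fun u v => all_comm hN hG hK _ _ le_rfl (by omega) hj (by omega) c A u v)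
      (fun u v => all_comm hN hG hK _ _ le_rfl (by omega) (by omega) hjN c Y u v)
      (fun u v => all_comm hN hG hK _ _ hj (by omega) (by omega) hjN A Y u v)
      (fun u v => all_comm hN hG hK _ _ (by omega) hjN (by omega) hjN P Y u v)
      (hG.inc 1 (j + 1) le_rfl (by omega) hjN c P hcP)
      (hG.inc j (j + 1) hj (by omega) hjN A P hAP)
      (hG.inc j (j + 1) hj (by omega) hjN A Y hAY)
      (hG.agr j hj (by omega) P Y hPY ⟨A, hAP, hAY⟩)
      (fun ζ hζ => ih (by omega) A hcA ζ hζ) ξ hξ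

/-- **NOWHERE INCIDENT**: if `X ⊄ Y` then the vectors carried by `X' ⊆ Y'` vanish. -/
theorem ninc (hN : 2 ≤ N) (hG : Cal G) (hK : Key₁ G) (i j : ℕ) (hi : 1 ≤ i) (hiN : i ≤ N)
    (hj : 1 ≤ j) (hjN : j ≤ N) (X : Gr F (Fin (N + 1)) i) (Y : Gr F (Fin (N + 1)) j)
    (h : ¬ X.1 ≤ Y.1) (ξ : K) (hξ : ∀ u v, Nin In u v → G i X u (G j Y v ξ) = 0) : ξ = 0 := by
  obtain ⟨c, hcX, hcY⟩ := exists_pt h
  refine ninc_point hN hG hK c j hj hjN Y hcY ξ fun u v huv => ?_
  refine two_ind (A := K) (S₁ := tsupport ⇑u) (S₂ := tsupport ⇑v)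
    (fun u' v' => G 1 c u' (G j Y v' ξ))
    (fun u' u'' v' => by
      change G 1 c (u' + u'') (G j Y v' ξ) = _
      rw [map_add, ContinuousLinearMap.add_apply])
    (fun u' v' v'' => by
      change G 1 c u' (G j Y (v' + v'') ξ) = _
      rw [map_add, ContinuousLinearMap.add_apply, map_add])
    (isClosed_tsupport _).isCompact (isClosed_tsupport _).isCompact
    (fun x hx y hy => ?_) u v subset_rfl subset_rfl
  obtain ⟨w₁, w₂, hw, O, V, hO, hxO, hV, hyV, h1, h2⟩ := split_inc (Z := Gr k (Fin (N + 1)) i)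
    (I₁ := fun L Z => In L Z) (I₂ := fun L Z => In Z L) (x := x) (y := y) in_closed in_closed' 1
    (fun z _ hz hz' => huv x hx y hy (le_trans hz hz'))
  refine ⟨O, V, hO, hxO, hV, hyV, fun u' v' hu' hv' => ?_⟩
  have e1 : G 1 c u' * G i X w₁ = 0 := hG.inc 1 i le_rfl hi hiN c X hcX u' w₁ (h1 _ hu')
  have e2 : G i X w₂ (G j Y v' ξ) = 0 := hξ w₂ v' (fun z hz y' hy' hle => h2 _ hv' y' hy' z hz hle)
  have e3 : G j Y v' ξ = G i X w₁ (G j Y v' ξ) + G i X w₂ (G j Y v' ξ) := by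
    have : G i X (w₁ + w₂) = 1 := by rw [← hw, map_one]
    rw [map_add] at this
    have h3 := congrArg (fun T : K →L[ℂ] K => T (G j Y v' ξ)) this
    exact h3.symm
  change G 1 c u' (G j Y v' ξ) = 0
  rw [e3, e2, add_zero]
  exact congrArg (fun T : K →L[ℂ] K => T (G j Y v' ξ)) e1

end all

end Vale.Agent.P092.H218.NC
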