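import Vale.Agent.P092.H175.FF
import Vale.Agent.P092.H132.T1

/-!
P092 (helper218): block Bd of T2: elementary bounds for the functions `ff`.
-/

namespace Vale.Agent.P092.H218

open Matrix Vale.Agent.P092.H553 Vale.Agent.P092.H175

/-- `0 ≤ |g⁻¹ b|² / B(g)`. -/
lemma fp_nonneg (g b : G3) : 0 ≤ rA (g⁻¹ * b) / rB g :=
  div_nonneg (H132.rA_pos _).le (H132.rB_pos _).le

/-- `|g⁻¹ b|² / B(g) ≤ |b|²`. -/
lemma fp_le (g b : G3) : rA (g⁻¹ * b) / rB g ≤ rA b := by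
  rw [div_le_iff₀ (H132.rB_pos g), mul_comm (rA b)]
  exact H132.rA_mul_le g⁻¹ b

/-- `0 ≤ |b|² - |gᵀ b|² / A(g)`. -/
lemma fq_nonneg (g b : G3) : 0 ≤ rA b - hs ((rm g)ᵀ * rm b) / rA g := by
  rw [sub_nonneg, div_le_iff₀ (H132.rA_pos g), mul_comm (rA b)]
  have h := H175.hs_mul_le ((rm g)ᵀ) (rm b)
  rwa [H175.hs_transpose] at h

/-- `|b|² - |gᵀ b|² / A(g) ≤ |b|²`. -/
lemma fq_le (g b : G3) : rA b - hs ((rm g)ᵀ * rm b) / rA g ≤ rA b := by
  have := div_nonneg (H175.hs_nonneg ((rm g)ᵀ * rm b)) (H132.rA_pos g).le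
  linarith

theorem ff_lower (t1 t2 : ℝ) (g b : G3) : Real.exp (-t1 - t2) * rA b ≤ ff t1 t2 g b := by
  unfold ff
  have h1 := fp_nonneg g b
  have h2 := mul_nonneg (Real.exp_pos (-t2)).le (fq_nonneg g b)
  linarith

theorem ff_pos (t1 t2 : ℝ) (g b : G3) : 0 < ff t1 t2 g b :=
  lt_of_lt_of_le (mul_pos (Real.exp_pos _) (H132.rA_pos b)) (ff_lower t1 t2 g b)

theorem ff_upper {t1 t2 : ℝ} (h1 : 0 ≤ t1) (h2 : 0 ≤ t2) (g b : G3) :
    ff t1 t2 g b ≤ 3 * rA b := by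
  unfold ff
  have e1 : Real.exp (-t2) ≤ 1 := Real.exp_le_one_iff.2 (by linarith)
  have e2 : Real.exp (-t1 - t2) ≤ 1 := Real.exp_le_one_iff.2 (by linarith)
  have k1 := fp_le g b
  have k2 : Real.exp (-t2) * (rA b - hs ((rm g)ᵀ * rm b) / rA g) ≤ 1 * rA b :=
    mul_le_mul e1 (fq_le g b) (fq_nonneg g b) zero_le_one
  have k3 : Real.exp (-t1 - t2) * rA b ≤ 1 * rA b :=
    mul_le_mul_of_nonneg_right e2 (H132.rA_pos b).le
  linarith

/-- Both bounds. -/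
theorem ff_bounds {t1 t2 : ℝ} (h1 : 0 ≤ t1) (h2 : 0 ≤ t2) (g b : G3) :
    Real.exp (-t1 - t2) * rA b ≤ ff t1 t2 g b ∧ ff t1 t2 g b ≤ 3 * rA b :=
  ⟨ff_lower t1 t2 g b, ff_upper h1 h2 g b⟩

theorem ff_shift (t1 t2 d1 d2 : ℝ) (g b : G3) :
    ff (t1 + d1) (t2 + d2) g b ≤ Real.exp (|d1| + |d2|) * ff t1 t2 g b := by
  unfold ff
  have hd1 := neg_abs_le d1
  have hd2 := neg_abs_le d2
  have ha1 := abs_nonneg d1
  have ha2 := abs_nonneg d2
  have k1 : rA (g⁻¹ * b) / rB g ≤ Real.exp (|d1| + |d2|) * (rA (g⁻¹ * b) / rB g) := by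
    have : (1 : ℝ) ≤ Real.exp (|d1| + |d2|) := Real.one_le_exp (by positivity)
    nlinarith [fp_nonneg g b]
  have k2 : Real.exp (-(t2 + d2)) ≤ Real.exp (|d1| + |d2|) * Real.exp (-t2) := by
    rw [← Real.exp_add, Real.exp_le_exp]; linarith
  have k3 : Real.exp (-(t1 + d1) - (t2 + d2)) ≤
      Real.exp (|d1| + |d2|) * Real.exp (-t1 - t2) := by
    rw [← Real.exp_add, Real.exp_le_exp]; linarith
  have l2 := mul_le_mul_of_nonneg_right k2 (fq_nonneg g b)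
  have l3 := mul_le_mul_of_nonneg_right k3 (H132.rA_pos b).le
  rw [mul_add, mul_add, ← mul_assoc, ← mul_assoc (Real.exp (|d1| + |d2|)) (Real.exp (-t1 - t2))]
  linarith

/-- Two sided form of the shift bound. -/
theorem ff_shift' (t1 t2 d1 d2 : ℝ) (g b : G3) :
    ff t1 t2 g b ≤ Real.exp (|d1| + |d2|) * ff (t1 + d1) (t2 + d2) g b := by
  have h := ff_shift (t1 + d1) (t2 + d2) (-d1) (-d2) g b
  rwa [abs_neg, abs_neg, add_neg_cancel_right, add_neg_cancel_right] at h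

/-- `3 ≤ A(b)`. -/
theorem three_le_rA (b : G3) : 3 ≤ rA b := by
  have h1 := H132.G12_ge b
  have h2 := H132.G23_ge b
  have ha := H132.rA_pos b
  have hb := H132.rB_pos b
  rw [G12, le_div_iff₀ hb] at h1
  rw [G23, le_div_iff₀ ha] at h2
  -- `3 B ≤ A²`, `3 A ≤ B²`
  by_contra hlt
  push Not at hlt
  have h3 : rB b < rA b := by nlinarith
  nlinarith

theorem one_le_rA (b : G3) : 1 ≤ rA b := by
  have := three_le_rA b
  linarith

end Vale.Agent.P092.H218
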