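import Mathlib

/-!
P092 (helper218), Team D, block [D-KEY]: the locality lemma and KEY* of #4424 (3).

`P, Q : C(X,ℂ) →⋆ₐ[ℂ] B(K)`, `W` bounded, `η` a vector.  If `P a (W (Q b η)) = 0` for all `a, b`
with disjoint (closed) supports, then `W (Q f η) = P f (W η)` for every `f`.
No metric on `X` and no covering multiplicity is used: one cuts the range of a real function.
-/

set_option linter.unusedSectionVars false
set_option linter.unusedVariables false

namespace Vale.Agent.P092.H218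

open scoped InnerProductSpace ComplexConjugate

variable {X Y K K' : Type*} [TopologicalSpace X] [CompactSpace X] [TopologicalSpace Y]
  [NormedAddCommGroup K] [InnerProductSpace ℂ K] [CompleteSpace K]
  [NormedAddCommGroup K'] [InnerProductSpace ℂ K'] [CompleteSpace K']

lemma one_ap (η : K) : (1 : K →L[ℂ] K) η = η := rfl
lemma mul_ap (A B : K →L[ℂ] K) (η : K) : (A * B) η = A (B η) := rfl

/-- A `*`-homomorphism turns `star f * f` into `‖π f η‖²`. -/
lemma norm_sq_hom (π : C(X, ℂ) →⋆ₐ[ℂ] (K →L[ℂ] K)) (g : C(X, ℂ)) (η : K) :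
    ((‖π g η‖ ^ 2 : ℝ) : ℂ) = ⟪η, π (star g * g) η⟫_ℂ := by
  have h1 : π (star g * g) η = (ContinuousLinearMap.adjoint (π g)) (π g η) := by
    rw [map_mul, map_star]; rfl
  rw [h1, ContinuousLinearMap.adjoint_inner_right, inner_self_eq_norm_sq_to_K]
  norm_cast

/-- The square-sum bound. -/
lemma sum_sq_le (π : C(X, ℂ) →⋆ₐ[ℂ] (K →L[ℂ] K)) {ι : Type*} (s : Finset ι) (g : ι → C(X, ℂ))
    {c : ℝ} (hc : 0 ≤ c) (h : ∀ x, ∑ i ∈ s, ‖g i x‖ ^ 2 ≤ c) (η : K) :
    ∑ i ∈ s, ‖π (g i) η‖ ^ 2 ≤ c * ‖η‖ ^ 2 := by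
  have e : ((∑ i ∈ s, ‖π (g i) η‖ ^ 2 : ℝ) : ℂ) = ⟪η, π (∑ i ∈ s, star (g i) * g i) η⟫_ℂ := by
    rw [Complex.ofReal_sum, map_sum, sum_apply, inner_sum]
    exact Finset.sum_congr rfl fun i _ => norm_sq_hom π (g i) η
  have hn : ‖∑ i ∈ s, star (g i) * g i‖ ≤ c := by
    rw [ContinuousMap.norm_le _ hc]
    intro x
    have : (∑ i ∈ s, star (g i) * g i) x = ((∑ i ∈ s, ‖g i x‖ ^ 2 : ℝ) : ℂ) := by
      rw [ContinuousMap.sum_apply, Complex.ofReal_sum]
      refine Finset.sum_congr rfl fun i _ => ?_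
      rw [ContinuousMap.mul_apply, ContinuousMap.star_apply]
      rw [Complex.star_def, Complex.conj_mul']
      norm_cast
    rw [this, Complex.norm_real, Real.norm_of_nonneg (Finset.sum_nonneg fun i _ => sq_nonneg _)]
    exact h x
  have hpi : ‖π (∑ i ∈ s, star (g i) * g i)‖ ≤ c :=
    (NonUnitalStarAlgHom.norm_apply_le π _).trans hn
  have hle : ‖((∑ i ∈ s, ‖π (g i) η‖ ^ 2 : ℝ) : ℂ)‖ ≤ c * ‖η‖ ^ 2 := by
    rw [e]
    calc ‖⟪η, π (∑ i ∈ s, star (g i) * g i) η⟫_ℂ‖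
        ≤ ‖η‖ * ‖π (∑ i ∈ s, star (g i) * g i) η‖ := norm_inner_le_norm _ _
      _ ≤ ‖η‖ * (c * ‖η‖) := by
          refine mul_le_mul_of_nonneg_left ?_ (norm_nonneg _)
          exact (ContinuousLinearMap.le_opNorm _ _).trans
            (mul_le_mul_of_nonneg_right hpi (norm_nonneg _))
      _ = c * ‖η‖ ^ 2 := by ring
  rw [Complex.norm_real, Real.norm_of_nonneg (Finset.sum_nonneg fun i _ => sq_nonneg _)] at hle
  exact hle

/-- The column bound: `‖∑ P(a_i) ζ_i‖² ≤ c ∑ ‖ζ_i‖²` if `∑ |a_i|² ≤ c`. -/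
lemma column_le (π : C(X, ℂ) →⋆ₐ[ℂ] (K →L[ℂ] K)) {ι : Type*} (s : Finset ι) (a : ι → C(X, ℂ))
    {c : ℝ} (hc : 0 ≤ c) (h : ∀ x, ∑ i ∈ s, ‖a i x‖ ^ 2 ≤ c) (ζ : ι → K) :
    ‖∑ i ∈ s, π (a i) (ζ i)‖ ^ 2 ≤ c * ∑ i ∈ s, ‖ζ i‖ ^ 2 := by
  set v := ∑ i ∈ s, π (a i) (ζ i) with hv
  have h1 : (‖v‖ ^ 2 : ℝ) ≤ ∑ i ∈ s, ‖π (star (a i)) v‖ * ‖ζ i‖ := by
    have e : ((‖v‖ ^ 2 : ℝ) : ℂ) = ∑ i ∈ s, ⟪π (star (a i)) v, ζ i⟫_ℂ := by
      have : ((‖v‖ ^ 2 : ℝ) : ℂ) = ⟪v, v⟫_ℂ := by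
        rw [inner_self_eq_norm_sq_to_K]; norm_cast
      rw [this]
      conv_lhs => rw [hv]
      rw [← hv, inner_sum]
      refine Finset.sum_congr rfl fun i _ => ?_
      rw [map_star]
      change _ = ⟪(ContinuousLinearMap.adjoint (π (a i))) v, ζ i⟫_ℂ
      rw [ContinuousLinearMap.adjoint_inner_left]
    have : ‖((‖v‖ ^ 2 : ℝ) : ℂ)‖ ≤ ∑ i ∈ s, ‖π (star (a i)) v‖ * ‖ζ i‖ := by
      rw [e]
      exact (norm_sum_le _ _).trans (Finset.sum_le_sum fun i _ => norm_inner_le_norm _ _)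
    rwa [Complex.norm_real, Real.norm_of_nonneg (sq_nonneg _)] at this
  have h2 : ∑ i ∈ s, ‖π (star (a i)) v‖ ^ 2 ≤ c * ‖v‖ ^ 2 := by
    refine sum_sq_le π s (fun i => star (a i)) hc (fun x => ?_) v
    refine le_trans (le_of_eq ?_) (h x)
    refine Finset.sum_congr rfl fun i _ => ?_
    rw [ContinuousMap.star_apply, norm_star]
  have h3 : (∑ i ∈ s, ‖π (star (a i)) v‖ * ‖ζ i‖) ^ 2 ≤
      (c * ‖v‖ ^ 2) * ∑ i ∈ s, ‖ζ i‖ ^ 2 :=
    (Finset.sum_mul_sq_le_sq_mul_sq s _ _).trans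
      (mul_le_mul_of_nonneg_right h2 (Finset.sum_nonneg fun i _ => sq_nonneg _))
  by_cases hv0 : ‖v‖ = 0
  · rw [hv0]
    have : 0 ≤ c * ∑ i ∈ s, ‖ζ i‖ ^ 2 :=
      mul_nonneg hc (Finset.sum_nonneg fun i _ => sq_nonneg _)
    simpa using this
  · have hpos : 0 < ‖v‖ ^ 2 := by positivity
    have h4 : (‖v‖ ^ 2) ^ 2 ≤ (c * ‖v‖ ^ 2) * ∑ i ∈ s, ‖ζ i‖ ^ 2 :=
      (pow_le_pow_left₀ (sq_nonneg _) h1 2).trans h3
    have h5 : ‖v‖ ^ 2 * ‖v‖ ^ 2 ≤ ‖v‖ ^ 2 * (c * ∑ i ∈ s, ‖ζ i‖ ^ 2) := by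
      calc ‖v‖ ^ 2 * ‖v‖ ^ 2 = (‖v‖ ^ 2) ^ 2 := by ring
        _ ≤ _ := h4
        _ = _ := by ring
    exact le_of_mul_le_mul_left h5 hpos

/-! ### Clamps -/

/-- clamp to `[0,1]`. -/
noncomputable def cl (y : ℝ) : ℝ := max 0 (min 1 y)

lemma cl_nonneg (y : ℝ) : 0 ≤ cl y := le_max_left _ _
lemma cl_le_one (y : ℝ) : cl y ≤ 1 := max_le zero_le_one (min_le_left _ _)
lemma cl_of_ge {y : ℝ} (h : 1 ≤ y) : cl y = 1 := by
  unfold cl; rw [min_eq_left h]; exact max_eq_right zero_le_one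
lemma cl_of_le {y : ℝ} (h : y ≤ 0) : cl y = 0 := by
  unfold cl; rw [min_eq_right (h.trans zero_le_one)]; exact max_eq_left h
lemma cl_mono : Monotone cl := fun _ _ h => max_le_max le_rfl (min_le_min le_rfl h)
lemma cl_cont : Continuous cl := continuous_const.max (continuous_const.min continuous_id)

lemma cl_lip : LipschitzWith 1 cl := by
  unfold cl
  exact (LipschitzWith.id.const_min 1).const_max 0

/-- the tent `cl(y - i + 1) - cl(y - i)` (support `[i-1, i+1]`). -/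
noncomputable def tn (i : ℕ) (y : ℝ) : ℝ := cl (y - i + 1) - cl (y - i)

lemma tn_nonneg (i : ℕ) (y : ℝ) : 0 ≤ tn i y := sub_nonneg.2 (cl_mono (by linarith))
lemma tn_le_one (i : ℕ) (y : ℝ) : tn i y ≤ 1 := by
  have := cl_le_one (y - i + 1); have := cl_nonneg (y - i); unfold tn; linarith

lemma tn_eq_zero {i : ℕ} {y : ℝ} (h : 1 ≤ |y - i|) : tn i y = 0 := by
  unfold tn
  rcases le_abs'.1 h with h | h
  · rw [cl_of_le (by linarith), cl_of_le (by linarith), sub_zero]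
  · rw [cl_of_ge (by linarith), cl_of_ge (by linarith), sub_self]

/-- The tents are a partition of unity on `[0, m]`. -/
lemma sum_tn {m : ℕ} {y : ℝ} (h0 : 0 ≤ y) (h1 : y ≤ m) :
    ∑ i ∈ Finset.range (m + 1), tn i y = 1 := by
  have e : ∀ i ∈ Finset.range (m + 1), tn i y =
      (fun j : ℕ => cl (y - j + 1)) i - (fun j : ℕ => cl (y - j + 1)) (i + 1) := by
    intro i _
    simp only [tn]
    congr 2
    push_cast; ring
  rw [Finset.sum_congr rfl e, Finset.sum_range_sub']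
  simp only [Nat.cast_zero, sub_zero]
  rw [cl_of_ge (by linarith), cl_of_le (by push_cast; linarith), sub_zero]

lemma lip_affine (c d : ℝ) : LipschitzWith ‖c‖₊ (fun y : ℝ => c * y + d) := by
  refine LipschitzWith.of_dist_le_mul fun x y => ?_
  rw [Real.dist_eq, Real.dist_eq, coe_nnnorm, Real.norm_eq_abs, ← abs_mul]
  apply le_of_eq; congr 1; ring

/-- `tn i (n y)` as a Lipschitz function of `y`. -/
noncomputable def tnF (n i : ℕ) : C(ℝ, ℝ) :=
  ⟨fun y => tn i (n * y), (cl_cont.comp (by fun_prop)).sub (cl_cont.comp (by fun_prop))⟩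

lemma tnF_lip (n i : ℕ) : ∃ C, LipschitzWith C (tnF n i) := by
  have h1 := cl_lip.comp (lip_affine (n : ℝ) (-(i : ℝ) + 1))
  have h2 := cl_lip.comp (lip_affine (n : ℝ) (-(i : ℝ)))
  have e : (fun y => (cl ∘ fun y : ℝ => (n : ℝ) * y + (-(i : ℝ) + 1)) y -
      (cl ∘ fun y : ℝ => (n : ℝ) * y + -(i : ℝ)) y) = ⇑(tnF n i) := by
    funext y
    simp only [tnF, ContinuousMap.coe_mk, tn, Function.comp]
    congr 2
    all_goals ring
  exact ⟨_, e ▸ h1.sub h2⟩

/-- `(y - i/n)` minus its truncation at `± 2/n`. -/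
noncomputable def rsF (n i : ℕ) : C(ℝ, ℝ) :=
  ⟨fun y => (y - (i / n : ℝ)) - max (-(2 / (n : ℝ))) (min (2 / (n : ℝ)) (y - (i / n : ℝ))),
    (continuous_id.sub continuous_const).sub
      (continuous_const.max (continuous_const.min (continuous_id.sub continuous_const)))⟩

lemma rsF_lip (n i : ℕ) : ∃ C, LipschitzWith C (rsF n i) := by
  have h0 : LipschitzWith ‖(1 : ℝ)‖₊ (fun y : ℝ => y - (i / n : ℝ)) := by
    have := lip_affine 1 (-(i / n : ℝ))
    have e : (fun y : ℝ => 1 * y + -(i / n : ℝ)) = (fun y : ℝ => y - (i / n : ℝ)) := by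
      funext y; ring
    rwa [e] at this
  exact ⟨_, h0.sub ((h0.const_min (2 / (n : ℝ))).const_max (-(2 / (n : ℝ))))⟩

lemma rsF_eq_zero {n i : ℕ} (hn : 0 < n) {y : ℝ} (h : |n * y - i| ≤ 2) : rsF n i y = 0 := by
  have hn' : (0 : ℝ) < n := by exact_mod_cast hn
  have h1 := abs_le.1 h
  have e : y - (i / n : ℝ) = (n * y - i) / n := by field_simp
  have h2 : y - (i / n : ℝ) ≤ 2 / n := by
    rw [e]; exact div_le_div_of_nonneg_right h1.2 hn'.le
  have h3 : -(2 / (n : ℝ)) ≤ y - (i / n : ℝ) := by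
    rw [e, ← neg_div]; exact div_le_div_of_nonneg_right h1.1 hn'.le
  simp only [rsF, ContinuousMap.coe_mk]
  rw [min_eq_right h2, max_eq_right h3, sub_self]

/-- the truncation of `y - i/n` at `± 2/n`. -/
noncomputable def trF (n i : ℕ) : C(ℝ, ℝ) :=
  ⟨fun y => max (-(2 / (n : ℝ))) (min (2 / (n : ℝ)) (y - (i / n : ℝ))),
      (continuous_const.max (continuous_const.min (continuous_id.sub continuous_const)))⟩

lemma abs_trF (n i : ℕ) (y : ℝ) : |trF n i y| ≤ 2 / n := by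
  have : (0 : ℝ) ≤ 2 / n := by positivity
  simp only [trF, ContinuousMap.coe_mk]
  rw [abs_le]
  exact ⟨le_max_left _ _, max_le (by linarith) (min_le_left _ _)⟩

lemma rsF_add_trF (n i : ℕ) (y : ℝ) : rsF n i y + trF n i y = y - (i / n : ℝ) := by
  simp only [rsF, trF, ContinuousMap.coe_mk]; ring

/-! ### The locality lemma -/

/-- A real continuous function as a complex one. -/
noncomputable def toC (f : C(X, ℝ)) : C(X, ℂ) := ⟨fun x => (f x : ℂ), by fun_prop⟩

lemma toC_apply (f : C(X, ℝ)) (x : X) : toC f x = (f x : ℂ) := rfl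

/-- The gap condition: the supports of `φ` and `ψ` are at positive distance. -/
def Gap (φ ψ : C(ℝ, ℝ)) : Prop := ∃ δ : ℝ, 0 < δ ∧ ∀ s t, φ s ≠ 0 → ψ t ≠ 0 → δ ≤ |s - t|

lemma gap_tn_rs {n : ℕ} (hn : 0 < n) (i : ℕ) : Gap (tnF n i) (rsF n i) := by
  have hn' : (0 : ℝ) < n := by exact_mod_cast hn
  refine ⟨1 / n, by positivity, fun s t hs ht => ?_⟩
  have h1 : |n * s - i| < 1 := by
    by_contra hc; exact hs (tn_eq_zero (not_lt.1 hc))
  have h2 : 2 < |n * t - i| := by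
    by_contra hc; exact ht (rsF_eq_zero hn (not_lt.1 hc))
  have h3 : |n * t - i| ≤ |n * (s - t)| + |n * s - i| := by
    have : n * t - i = -(n * (s - t)) + (n * s - i) := by ring
    rw [this]
    exact (abs_add_le _ _).trans (by rw [abs_neg])
  rw [abs_mul, abs_of_pos hn'] at h3
  rw [div_le_iff₀ hn']
  nlinarith

theorem loc_nonneg (P : C(X, ℂ) →⋆ₐ[ℂ] (K' →L[ℂ] K')) (Q : C(X, ℂ) →⋆ₐ[ℂ] (K →L[ℂ] K))
    (W : K →L[ℂ] K') (η : K) (f : C(X, ℝ)) (hf : ∀ x, 0 ≤ f x)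
    (h : ∀ φ ψ : C(ℝ, ℝ), (∃ C, LipschitzWith C φ) → (∃ C, LipschitzWith C ψ) → Gap φ ψ →
      P (toC (φ.comp f)) (W (Q (toC (ψ.comp f)) η)) = 0) :
    W (Q (toC f) η) = P (toC f) (W η) := by
  have key : ∀ n : ℕ, 0 < n → ‖P (toC f) (W η) - W (Q (toC f) η)‖ ≤
      (1 / n + √(4 * (‖f‖ + 2) / n)) * (‖W‖ * ‖η‖) := by
    intro n hn
    have hn' : (0 : ℝ) < n := by exact_mod_cast hn
    have hn1 : (1 : ℝ) ≤ n := by exact_mod_cast hn
    set m : ℕ := ⌈n * ‖f‖⌉₊ with hm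
    set A : ℕ → C(X, ℂ) := fun i => toC ((tnF n i).comp f) with hA
    have hAn : ∀ i x, ‖A i x‖ = tn i (n * f x) := fun i x => by
      simp only [hA, toC_apply, ContinuousMap.comp_apply]
      rw [Complex.norm_real]; exact Real.norm_of_nonneg (tn_nonneg _ _)
    have hle : ∀ x, n * f x ≤ m := fun x =>
      (mul_le_mul_of_nonneg_left ((le_abs_self _).trans (f.norm_coe_le_norm x)) hn'.le).trans
        (Nat.le_ceil _)
    have hge : ∀ x, 0 ≤ n * f x := fun x => mul_nonneg hn'.le (hf x)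
    have hsum : ∑ i ∈ Finset.range (m + 1), A i = 1 := by
      ext x
      rw [ContinuousMap.sum_apply]
      have e1 : ∀ i ∈ Finset.range (m + 1), A i x = ((tn i (n * f x) : ℝ) : ℂ) :=
        fun i _ => rfl
      rw [Finset.sum_congr rfl e1, ← Complex.ofReal_sum, sum_tn (hge x) (hle x)]; simp
    set c : ℕ → ℂ := fun i => ((i / n : ℝ) : ℂ) with hc
    set g : ℕ → C(X, ℂ) := fun i => toC f - c i • 1 with hg
    set k : ℕ → C(X, ℂ) := fun i => toC ((trF n i).comp f) with hk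
    have hgk : ∀ i, g i = k i + toC ((rsF n i).comp f) := by
      intro i
      ext x
      have := rsF_add_trF n i (f x)
      simp only [hg, hk, hc, ContinuousMap.sub_apply, ContinuousMap.smul_apply,
          ContinuousMap.one_apply, toC_apply, smul_eq_mul, mul_one, ContinuousMap.add_apply,
          ContinuousMap.comp_apply]
      rw [← Complex.ofReal_sub, ← this]
      push_cast; ring
    have hgx : ∀ i x, ‖g i x‖ = |n * f x - i| / n := by
      intro i x
      have : g i x = (((n * f x - i) / n : ℝ) : ℂ) := by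
        simp only [hg, hc, ContinuousMap.sub_apply, ContinuousMap.smul_apply,
          ContinuousMap.one_apply, toC_apply, smul_eq_mul, mul_one]
        rw [← Complex.ofReal_sub]
        congr 1
        field_simp
      rw [this, Complex.norm_real, Real.norm_eq_abs, abs_div, abs_of_pos hn']
    -- decomposition
    have dec : P (toC f) (W η) - W (Q (toC f) η) =
        P (∑ i ∈ Finset.range (m + 1), A i * g i) (W η) -
          ∑ i ∈ Finset.range (m + 1), P (A i) (W (Q (k i) η)) := by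
      have e1 : ∀ i, P (A i) (W (Q (k i) η)) = P (A i) (W (Q (g i) η)) := by
        intro i
        have e3 := h (tnF n i) (rsF n i) (tnF_lip n i) (rsF_lip n i) (gap_tn_rs hn i)
        rw [hgk i, map_add, add_apply, map_add, map_add]
        simp only [hA]
        rw [e3, add_zero]
      have e4 : ∀ i, P (A i) (W (Q (g i) η)) =
          P (A i) (W (Q (toC f) η)) - c i • P (A i) (W η) := by
        intro i
        simp only [hg, map_sub, map_smul, map_one, sub_apply, smul_apply, one_ap]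
      have e5 : ∀ i, P (A i * g i) (W η) =
          P (A i) (P (toC f) (W η)) - c i • P (A i) (W η) := by
        intro i
        rw [map_mul, mul_ap]
        simp only [hg, map_sub, map_smul, map_one, sub_apply, smul_apply, one_ap]
      rw [map_sum, sum_apply]
      rw [← Finset.sum_sub_distrib]
      have e6 : ∀ i ∈ Finset.range (m + 1), P (A i * g i) (W η) -
          P (A i) (W (Q (k i) η)) =
          P (A i) (P (toC f) (W η) - W (Q (toC f) η)) := by
        intro i _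
        rw [e1, e4, e5, map_sub]; abel
      rw [Finset.sum_congr rfl e6, ← sum_apply, ← map_sum, hsum, map_one, one_ap]
    -- first bound
    have b1 : ‖P (∑ i ∈ Finset.range (m + 1), A i * g i) (W η)‖ ≤
        1 / n * (‖W‖ * ‖η‖) := by
      refine (ContinuousLinearMap.le_opNorm _ _).trans ?_
      refine mul_le_mul ((NonUnitalStarAlgHom.norm_apply_le P _).trans ?_)
        (ContinuousLinearMap.le_opNorm _ _) (norm_nonneg _) (by positivity)
      rw [ContinuousMap.norm_le _ (by positivity)]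
      intro x
      rw [ContinuousMap.sum_apply]
      refine (norm_sum_le _ _).trans ?_
      calc ∑ i ∈ Finset.range (m + 1), ‖(A i * g i) x‖
          ≤ ∑ i ∈ Finset.range (m + 1), tn i (n * f x) * (1 / n) := by
            refine Finset.sum_le_sum fun i _ => ?_
            rw [ContinuousMap.mul_apply, norm_mul, hAn, hgx]
            by_cases hh : 1 ≤ |n * f x - i|
            · rw [tn_eq_zero hh]; simp
            · refine mul_le_mul_of_nonneg_left ?_ (tn_nonneg _ _)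
              exact div_le_div_of_nonneg_right (not_le.1 hh).le hn'.le
        _ = 1 / n := by
            rw [← Finset.sum_mul, sum_tn (hge x) (hle x), one_mul]
    -- second bound
    have b2 : ‖∑ i ∈ Finset.range (m + 1), P (A i) (W (Q (k i) η))‖ ^ 2 ≤
        (√(4 * (‖f‖ + 2) / n) * (‖W‖ * ‖η‖)) ^ 2 := by
      refine (column_le P _ A zero_le_one (fun x => ?_)
        (fun i => W (Q (k i) η))).trans ?_
      · calc ∑ i ∈ Finset.range (m + 1), ‖A i x‖ ^ 2
            ≤ ∑ i ∈ Finset.range (m + 1), tn i (n * f x) := by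
              refine Finset.sum_le_sum fun i _ => ?_
              rw [hAn]
              have h1 := tn_nonneg i (n * f x)
              have h2 := tn_le_one i (n * f x)
              nlinarith
          _ = 1 := sum_tn (hge x) (hle x)
      · rw [one_mul, mul_pow, Real.sq_sqrt (by positivity)]
        have s1 : ∀ i, ‖W (Q (k i) η)‖ ^ 2 ≤ (2 / n) ^ 2 * (‖W‖ * ‖η‖) ^ 2 := by
          intro i
          have hki : ‖k i‖ ≤ 2 / n := by
            rw [ContinuousMap.norm_le _ (by positivity)]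
            intro x
            simp only [hk, toC_apply, ContinuousMap.comp_apply]
            rw [Complex.norm_real]; exact abs_trF _ _ _
          have h1 : ‖W (Q (k i) η)‖ ≤ ‖W‖ * (2 / n * ‖η‖) :=
            (ContinuousLinearMap.le_opNorm _ _).trans
              (mul_le_mul_of_nonneg_left ((ContinuousLinearMap.le_opNorm _ _).trans
                (mul_le_mul_of_nonneg_right ((NonUnitalStarAlgHom.norm_apply_le Q _).trans hki)
                  (norm_nonneg _))) (norm_nonneg _))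
          calc ‖W (Q (k i) η)‖ ^ 2 ≤ (‖W‖ * (2 / n * ‖η‖)) ^ 2 :=
                pow_le_pow_left₀ (norm_nonneg _) h1 2
            _ = _ := by ring
        refine (Finset.sum_le_sum fun i _ => s1 i).trans ?_
        rw [Finset.sum_const, Finset.card_range, nsmul_eq_mul, ← mul_assoc]
        refine mul_le_mul_of_nonneg_right ?_ (sq_nonneg _)
        have hm1 : (m : ℝ) ≤ n * ‖f‖ + 1 :=
          (Nat.ceil_lt_add_one (by positivity)).le
        push_cast
        rw [div_pow, ← mul_div_assoc, div_le_div_iff₀ (by positivity) hn']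
        have : ((m : ℝ) + 1) ≤ n * (‖f‖ + 2) := by nlinarith
        nlinarith [mul_le_mul_of_nonneg_right this (by positivity : (0 : ℝ) ≤ 4 * n)]
    have b3 : ‖∑ i ∈ Finset.range (m + 1), P (A i) (W (Q (k i) η))‖ ≤
        √(4 * (‖f‖ + 2) / n) * (‖W‖ * ‖η‖) := (sq_le_sq₀ (norm_nonneg _) (by positivity)).1 b2
    rw [dec]
    calc _ ≤ _ := norm_sub_le _ _
      _ ≤ 1 / n * (‖W‖ * ‖η‖) + √(4 * (‖f‖ + 2) / n) * (‖W‖ * ‖η‖) := add_le_add b1 b3
      _ = _ := by ring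
  have h0 : ‖P (toC f) (W η) - W (Q (toC f) η)‖ ≤ 0 := by
    have l1 : Filter.Tendsto (fun n : ℕ => (1 / (n : ℝ) + √(4 * (‖f‖ + 2) / n)) * (‖W‖ * ‖η‖))
        Filter.atTop (nhds ((0 + √0) * (‖W‖ * ‖η‖))) := by
      refine Filter.Tendsto.mul_const _ (Filter.Tendsto.add ?_ ?_)
      · exact tendsto_const_div_atTop_nhds_zero_nat 1
      · exact (Real.continuous_sqrt.tendsto 0).comp (tendsto_const_div_atTop_nhds_zero_nat _)
    rw [Real.sqrt_zero, add_zero, zero_mul] at l1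
    refine ge_of_tendsto l1 ?_
    filter_upwards [Filter.eventually_gt_atTop 0] with n hn using key n hn
  have := norm_le_zero_iff.1 h0
  exact (sub_eq_zero.1 this).symm

/-- The locality lemma for one real function. -/
theorem loc_real (P : C(X, ℂ) →⋆ₐ[ℂ] (K' →L[ℂ] K')) (Q : C(X, ℂ) →⋆ₐ[ℂ] (K →L[ℂ] K))
    (W : K →L[ℂ] K') (η : K) (f : C(X, ℝ))
    (h : ∀ φ ψ : C(ℝ, ℝ), (∃ C, LipschitzWith C φ) → (∃ C, LipschitzWith C ψ) → Gap φ ψ →
      P (toC (φ.comp f)) (W (Q (toC (ψ.comp f)) η)) = 0) :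
    W (Q (toC f) η) = P (toC f) (W η) := by
  set M : ℝ := ‖f‖ with hM
  set f' : C(X, ℝ) := f + ContinuousMap.const X M with hf'
  set sh : C(ℝ, ℝ) := ⟨fun y => y + M, by fun_prop⟩ with hsh
  have hshl : LipschitzWith 1 sh := by
    refine LipschitzWith.of_dist_le_mul fun x y => ?_
    simp [hsh, Real.dist_eq]
  have hcomp : ∀ φ : C(ℝ, ℝ), φ.comp f' = (φ.comp sh).comp f := fun φ => by
    ext x; simp [hf', hsh]
  have main := loc_nonneg P Q W η f' (fun x => ?_) (fun φ ψ hφ hψ hg => ?_)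
  · have e : toC f' = toC f + (M : ℂ) • (1 : C(X, ℂ)) := by
      ext x
      simp [toC_apply, hf']
    rw [e] at main
    simp only [map_add, map_smul, map_one, add_apply, smul_apply, one_ap] at main
    exact add_right_cancel main
  · have h1 := f.norm_coe_le_norm x
    rw [Real.norm_eq_abs] at h1
    have := (abs_le.1 h1).1
    simp only [hf', ContinuousMap.add_apply, ContinuousMap.const_apply]
    linarith
  · rw [hcomp, hcomp]
    obtain ⟨C, hC⟩ := hφ
    obtain ⟨D, hD⟩ := hψ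
    refine h _ _ ⟨_, hC.comp hshl⟩ ⟨_, hD.comp hshl⟩ ?_
    obtain ⟨δ, hδ, hg⟩ := hg
    refine ⟨δ, hδ, fun s t hs ht => ?_⟩
    have := hg (s + M) (t + M) hs ht
    rwa [add_sub_add_right_eq_sub] at this

lemma disj_of_gap {φ ψ : C(ℝ, ℝ)} (hg : Gap φ ψ) (f : C(X, ℝ)) :
    Disjoint (tsupport ⇑(toC (φ.comp f))) (tsupport ⇑(toC (ψ.comp f))) := by
  obtain ⟨δ, hδ, hg⟩ := hg
  have aux : ∀ χ : C(ℝ, ℝ), tsupport ⇑(toC (χ.comp f)) ⊆ f ⁻¹' (tsupport ⇑χ) := by
    intro χ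
    refine closure_minimal (fun x hx => ?_) ((isClosed_tsupport _).preimage f.continuous)
    refine subset_tsupport _ ?_
    intro h0
    apply hx
    change ((χ (f x) : ℝ) : ℂ) = 0
    rw [h0]; rfl
  refine Set.disjoint_left.2 fun x hx1 hx2 => ?_
  obtain ⟨s, hs1, hs2⟩ := Metric.mem_closure_iff.1 (aux φ hx1) (δ / 2) (by positivity)
  obtain ⟨t, ht1, ht2⟩ := Metric.mem_closure_iff.1 (aux ψ hx2) (δ / 2) (by positivity)
  have := hg s t hs1 ht1
  rw [Real.dist_eq] at hs2 ht2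
  have h3 : |s - t| ≤ |f x - s| + |f x - t| := by
    have : s - t = -(f x - s) + (f x - t) := by ring
    rw [this]
    exact (abs_add_le _ _).trans (by rw [abs_neg])
  linarith

lemma eq_re_add_im (f : C(X, ℂ)) :
    f = toC ⟨fun x => (f x).re, by fun_prop⟩ +
      Complex.I • toC ⟨fun x => (f x).im, by fun_prop⟩ := by
  ext x
  simp only [ContinuousMap.add_apply, ContinuousMap.smul_apply, toC_apply,
    ContinuousMap.coe_mk, smul_eq_mul]
  rw [mul_comm]; exact (Complex.re_add_im _).symm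

/-- From real functions to complex functions. -/
lemma ext_real (P : C(X, ℂ) →⋆ₐ[ℂ] (K' →L[ℂ] K')) (Q : C(X, ℂ) →⋆ₐ[ℂ] (K →L[ℂ] K))
    (W : K →L[ℂ] K') (η : K) (h : ∀ f : C(X, ℝ), W (Q (toC f) η) = P (toC f) (W η))
    (f : C(X, ℂ)) : W (Q f η) = P f (W η) := by
  rw [eq_re_add_im f]
  simp only [map_add, map_smul, add_apply, smul_apply, h]

/-- **THE LOCALITY LEMMA.** If `P a W Q b η = 0` for all `a, b` with disjoint supports, then
`W Q f η = P f W η` for every `f`. -/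
theorem loc (P : C(X, ℂ) →⋆ₐ[ℂ] (K' →L[ℂ] K')) (Q : C(X, ℂ) →⋆ₐ[ℂ] (K →L[ℂ] K))
    (W : K →L[ℂ] K') (η : K)
    (h : ∀ a b : C(X, ℂ), Disjoint (tsupport ⇑a) (tsupport ⇑b) → P a (W (Q b η)) = 0)
    (f : C(X, ℂ)) : W (Q f η) = P f (W η) :=
  ext_real P Q W η (fun f => loc_real P Q W η f fun _ _ _ _ hg => h _ _ (disj_of_gap hg f)) f

/-- The locality lemma, operator form. -/
theorem loc_op (P : C(X, ℂ) →⋆ₐ[ℂ] (K' →L[ℂ] K')) (Q : C(X, ℂ) →⋆ₐ[ℂ] (K →L[ℂ] K))
    (W : K →L[ℂ] K')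
    (h : ∀ a b : C(X, ℂ), Disjoint (tsupport ⇑a) (tsupport ⇑b) →
      (P a).comp (W.comp (Q b)) = 0)
    (f : C(X, ℂ)) : W.comp (Q f) = (P f).comp W := by
  ext η
  exact loc P Q W η (fun a b hab => by
    have := congrArg (fun T : K →L[ℂ] K' => T η) (h a b hab)
    simpa using this) f

/-! ### KEY* -/

/-- **KEY\*, one real function `f`** (only Lipschitz functions of `f` in the hypothesis). -/
theorem key_real (βc βb : C(X, ℂ) →⋆ₐ[ℂ] (K →L[ℂ] K)) (L : K →L[ℂ] K) (u : C(X, ℂ))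
    (h0 : βc u * L = 0) (f : C(X, ℝ))
    (h1 : ∀ φ ψ : C(ℝ, ℝ), (∃ C, LipschitzWith C φ) → (∃ C, LipschitzWith C ψ) → Gap φ ψ →
      βc (u * toC (φ.comp f)) * βb (toC (ψ.comp f)) * L = 0) :
    βc u * βb (toC f) * L = 0 := by
  ext ζ
  have e := loc_real βc βb (βc u) (L ζ) f (fun φ ψ hφ hψ hg => ?_)
  · have e0 : βc u (L ζ) = 0 := by
      have := congrArg (fun T : K →L[ℂ] K => T ζ) h0
      simpa [mul_ap] using this
    rw [e0, map_zero] at e
    rw [mul_ap, mul_ap]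
    simpa using e
  · have := congrArg (fun T : K →L[ℂ] K => T ζ) (h1 φ ψ hφ hψ hg)
    simp only [mul_ap] at this
    rw [mul_comm u, map_mul, mul_ap] at this
    simpa using this

/-- **KEY\*** : if `βc u L = 0` and `βc (u a) βb b L = 0` for all `a, b` with disjoint supports,
then `βc u βb f L = 0` for every `f`. -/
theorem key_star (βc βb : C(X, ℂ) →⋆ₐ[ℂ] (K →L[ℂ] K)) (L : K →L[ℂ] K) (u : C(X, ℂ))
    (h0 : βc u * L = 0)
    (h1 : ∀ a b : C(X, ℂ), Disjoint (tsupport ⇑a) (tsupport ⇑b) → βc (u * a) * βb b * L = 0)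
    (f : C(X, ℂ)) : βc u * βb f * L = 0 := by
  rw [eq_re_add_im f, map_add, map_smul, mul_add, add_mul, mul_smul_comm, smul_mul_assoc]
  rw [key_real βc βb L u h0 _ fun _ _ _ _ hg => h1 _ _ (disj_of_gap hg _),
    key_real βc βb L u h0 _ fun _ _ _ _ hg => h1 _ _ (disj_of_gap hg _)]
  simp

/-- `u` (function on points) and `g` (function on lines) contain no incident pair in their
supports. -/
def Off (Inc : X → Y → Prop) (u : C(X, ℂ)) (g : C(Y, ℂ)) : Prop :=
  ∀ z ∈ tsupport ⇑u, ∀ n ∈ tsupport ⇑g, ¬ Inc z n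

/-- **KEY\*, incidence form** (block [D-KEY] of #4608). `h4` is (4) of #4334:
`β_c(U) β_b(X) λ_m(A) = 0` if no line of `A` meets `U` and `X ∩ U = ∅`; `hI` is (I1).  Output:
`β_c(u) β_b(f) λ_m(g) = 0` for EVERY `f`. -/
theorem key (Inc : X → Y → Prop) (βc βb : C(X, ℂ) →⋆ₐ[ℂ] (K →L[ℂ] K))
    (lam : C(Y, ℂ) →⋆ₐ[ℂ] (K →L[ℂ] K))
    (hI : ∀ u g, Off Inc u g → βc u * lam g = 0)
    (h4 : ∀ (u f : C(X, ℂ)) (g : C(Y, ℂ)), Off Inc u g → Disjoint (tsupport ⇑u) (tsupport ⇑f) →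
      βc u * βb f * lam g = 0)
    (u f : C(X, ℂ)) (g : C(Y, ℂ)) (h : Off Inc u g) : βc u * βb f * lam g = 0 := by
  refine key_star βc βb (lam g) u (hI u g h) (fun a b hab => ?_) f
  have hs : tsupport ⇑(u * a) ⊆ tsupport ⇑u :=
    closure_mono fun x hx h0 => hx (by rw [ContinuousMap.mul_apply, h0, zero_mul])
  have ha : tsupport ⇑(u * a) ⊆ tsupport ⇑a :=
    closure_mono fun x hx h0 => hx (by rw [ContinuousMap.mul_apply, h0, mul_zero])
  exact h4 _ _ _ (fun z hz n hn => h z (hs hz) n hn) (hab.mono_left ha)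

end Vale.Agent.P092.H218

/-- **KEY\*, incidence form, Lipschitz input**: `X` a compact (pseudo)metric space, (4) known only
for real Lipschitz `f`; output for every real Lipschitz `f`. -/
theorem Vale.Agent.P092.H218.key_lip {X Y K : Type*} [PseudoMetricSpace X] [CompactSpace X]
    [TopologicalSpace Y] [NormedAddCommGroup K] [InnerProductSpace ℂ K] [CompleteSpace K]
    (Inc : X → Y → Prop) (βc βb : C(X, ℂ) →⋆ₐ[ℂ] (K →L[ℂ] K))
    (lam : C(Y, ℂ) →⋆ₐ[ℂ] (K →L[ℂ] K))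
    (hI : ∀ u g, Vale.Agent.P092.H218.Off Inc u g → βc u * lam g = 0)
    (h4 : ∀ (u : C(X, ℂ)) (f : C(X, ℝ)) (g : C(Y, ℂ)), Vale.Agent.P092.H218.Off Inc u g →
      (∃ C : NNReal, LipschitzWith C ⇑f) →
      Disjoint (tsupport ⇑u) (tsupport ⇑(Vale.Agent.P092.H218.toC f)) →
      βc u * βb (Vale.Agent.P092.H218.toC f) * lam g = 0)
    (u : C(X, ℂ)) (f : C(X, ℝ)) (g : C(Y, ℂ)) (h : Vale.Agent.P092.H218.Off Inc u g)
    (hf : ∃ C : NNReal, LipschitzWith C ⇑f) : βc u * βb (Vale.Agent.P092.H218.toC f) * lam g = 0 := by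
  open Vale.Agent.P092.H218 in
  refine key_real βc βb (lam g) u (hI u g h) f (fun φ ψ hφ hψ hgap => ?_)
  obtain ⟨C, hC⟩ := hf
  obtain ⟨D, hD⟩ := hψ
  have hs : tsupport ⇑(u * toC (φ.comp f)) ⊆ tsupport ⇑u :=
    closure_mono fun x hx h0 => hx (by rw [ContinuousMap.mul_apply, h0, zero_mul])
  have ha : tsupport ⇑(u * toC (φ.comp f)) ⊆ tsupport ⇑(toC (φ.comp f)) :=
    closure_mono fun x hx h0 => hx (by rw [ContinuousMap.mul_apply, h0, mul_zero])
  exact h4 _ _ _ (fun z hz n hn => h z (hs hz) n hn) ⟨_, hD.comp hC⟩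
    ((disj_of_gap hgap f).mono_left ha)
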