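import Vale.Agent.P092.H218.NAll
import Vale.Agent.P092.H644.SGeo

/-!
P092 (helper218), TEAM N: the output of the rank count (`H618.RkOut`, letters `YG`, `IG` of
helper68 / helper644) gives the calculi `Cal` of `H218.NChain` on the Grassmannians `Gr k (Fin n) j`.
-/

set_option linter.all false

open Set Topology Module

namespace Vale.Agent.P092.H218.NC

open Vale.Agent.P092.H100.Gr (Gr incG incG_closed eq_of_le)
open Vale.Agent.P092.H232 (Nin)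
open Vale.Agent.P092.H68.Gras (YG IG)

variable {k : Type} [NontriviallyNormedField k] [ProperSpace k] {n : ℕ}
  {K : Type} [NormedAddCommGroup K] [InnerProductSpace ℂ K] [CompleteSpace K]

/-- the topologies of `YG` and `Gr` agree -/
theorem top_YG (d : ℕ) : (inferInstance : TopologicalSpace (YG k n d)) =
    (inferInstanceAs (TopologicalSpace (Gr k (Fin n) (min d n)))) := rfl

/-- one calculus, read on `Gr k (Fin n) (min d n)` -/
noncomputable def rd {d : ℕ} (g : C(YG k n d, ℂ) →⋆ₐ[ℂ] (K →L[ℂ] K)) :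
    C(Gr k (Fin n) (min d n), ℂ) →⋆ₐ[ℂ] (K →L[ℂ] K) := g

/-- change of the dimension index -/
noncomputable def cst {d j : ℕ} (h : d = j)
    (g : Gr k (Fin n) d → (C(Gr k (Fin n) d, ℂ) →⋆ₐ[ℂ] (K →L[ℂ] K))) :
    Gr k (Fin n) j → (C(Gr k (Fin n) j, ℂ) →⋆ₐ[ℂ] (K →L[ℂ] K)) := by
  subst h
  exact g

/-- change of the dimension index, subspaces -/
def cs {d j : ℕ} (h : d = j) (X : Gr k (Fin n) j) : Gr k (Fin n) d := ⟨X.1, X.2.trans h.symm⟩

/-- change of the dimension index, functions -/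
noncomputable def cf {d j : ℕ} (h : d = j) (f : C(Gr k (Fin n) j, ℂ)) : C(Gr k (Fin n) d, ℂ) := by
  subst h
  exact f

theorem cf_apply {d j : ℕ} (h : d = j) (f : C(Gr k (Fin n) j, ℂ)) (X : Gr k (Fin n) d) :
    cf h f X = f ⟨X.1, X.2.trans h⟩ := by
  subst h
  rfl

theorem cst_apply {d j : ℕ} (h : d = j)
    (g : Gr k (Fin n) d → (C(Gr k (Fin n) d, ℂ) →⋆ₐ[ℂ] (K →L[ℂ] K))) (X : Gr k (Fin n) j)
    (f : C(Gr k (Fin n) j, ℂ)) : cst h g X f = g (cs h X) (cf h f) := by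
  subst h
  rfl

theorem le_of_gr {j : ℕ} (X : Gr k (Fin n) j) : min j n = j := by
  have := Submodule.finrank_le X.1
  rw [X.2, finrank_pi, Fintype.card_fin] at this
  omega

/-- the calculi on `Gr` -/
noncomputable def gg (G' : ∀ j, YG k n j → (C(YG k n j, ℂ) →⋆ₐ[ℂ] (K →L[ℂ] K))) (j : ℕ)
    (X : Gr k (Fin n) j) : C(Gr k (Fin n) j, ℂ) →⋆ₐ[ℂ] (K →L[ℂ] K) :=
  cst (le_of_gr X) (fun Y => rd (G' j Y)) X

theorem gg_apply (G' : ∀ j, YG k n j → (C(YG k n j, ℂ) →⋆ₐ[ℂ] (K →L[ℂ] K))) {j : ℕ}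
    (X : Gr k (Fin n) j) (f : C(Gr k (Fin n) j, ℂ)) :
    gg G' j X f = rd (G' j (cs (le_of_gr X) X)) (cf (le_of_gr X) f) :=
  cst_apply _ _ _ _

theorem cf_tsupport {d j : ℕ} (h : d = j) (f : C(Gr k (Fin n) j, ℂ)) (X : Gr k (Fin n) d)
    (hX : X ∈ tsupport ⇑(cf h f)) : (⟨X.1, X.2.trans h⟩ : Gr k (Fin n) j) ∈ tsupport ⇑f := by
  subst h
  exact hX

theorem cf_surj {d j : ℕ} (h : d = j) (f : C(Gr k (Fin n) d, ℂ)) :
    ∃ f' : C(Gr k (Fin n) j, ℂ), cf h f' = f := by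
  subst h
  exact ⟨f, rfl⟩

/-- non-incidence is transported -/
theorem nin_cf {i j i' j' : ℕ} (h : i' = i) (h' : j' = j) (u : C(Gr k (Fin n) i, ℂ))
    (v : C(Gr k (Fin n) j, ℂ))
    (hu : Nin (fun (L : Gr k (Fin n) i) (M : Gr k (Fin n) j) => L.1 ≤ M.1) u v) :
    Nin (fun (L : Gr k (Fin n) i') (M : Gr k (Fin n) j') => L.1 ≤ M.1) (cf h u) (cf h' v) := by
  subst h; subst h'
  exact hu

section act

variable {A : Type*} [Group A] [DistribMulAction A (Fin n → k)] [SMulCommClass A k (Fin n → k)]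

theorem cs_smul {d j : ℕ} (h : d = j) (g : A) (X : Gr k (Fin n) j) :
    cs h (g • X) = g • cs h X := by
  subst h
  rfl

theorem cf_comp {d j : ℕ} (h : d = j) (g : A) (f : C(Gr k (Fin n) j, ℂ))
    (hc : Continuous fun x : Gr k (Fin n) j => g • x)
    (hc' : Continuous fun x : Gr k (Fin n) d => g • x) :
    cf h (f.comp ⟨fun x => g • x, hc⟩) = (cf h f).comp ⟨fun x => g • x, hc'⟩ := by
  subst h
  rfl

end act

section main

variable {N : ℕ} {G' : ∀ j, YG k (N + 1) j → (C(YG k (N + 1) j, ℂ) →⋆ₐ[ℂ] (K →L[ℂ] K))}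

/-- the calculi on the Grassmannians -/
theorem cal_of
    (com : ∀ i j, 1 ≤ i → i ≤ j → j ≤ N → ∀ (X : YG k (N + 1) i) (X' : YG k (N + 1) j),
      IG i j X X' → ∀ f f', Commute (G' i X f) (G' j X' f'))
    (inc : ∀ i j, 1 ≤ i → i ≤ j → j ≤ N → ∀ (X : YG k (N + 1) i) (X' : YG k (N + 1) j),
      IG i j X X' → ∀ u h, H618.Nin (IG i j) u h → G' i X u * G' j X' h = 0)
    (agr₁ : ∀ a b : YG k (N + 1) 1, a ≠ b → ∀ ξ : K, (∀ f, G' 1 a f ξ = G' 1 b f ξ) → ξ = 0)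
    (agr : ∀ j, 1 ≤ j → j < N → ∀ A B : YG k (N + 1) (j + 1), A ≠ B →
      (∃ X : YG k (N + 1) j, IG j (j + 1) X A ∧ IG j (j + 1) X B) → ∀ ξ : K,
      (∀ f, G' (j + 1) A f ξ = G' (j + 1) B f ξ) → ξ = 0) : Cal (gg G') where
  com i j h1 h2 h3 X X' hX f f' := by
    rw [gg_apply, gg_apply]
    exact com i j h1 h2 h3 (cs (le_of_gr X) X) (cs (le_of_gr X') X') hX _ _
  inc i j h1 h2 h3 X X' hX u h huh := by
    rw [gg_apply, gg_apply]
    exact inc i j h1 h2 h3 (cs (le_of_gr X) X) (cs (le_of_gr X') X') hX _ _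
      (nin_cf (le_of_gr X) (le_of_gr X') u h huh)
  agr₁ a b hab ξ hξ := by
    refine agr₁ (cs (le_of_gr a) a) (cs (le_of_gr b) b)
      (fun h => hab (Subtype.ext (congrArg Subtype.val h))) ξ fun f => ?_
    obtain ⟨f', rfl⟩ : ∃ f', cf (le_of_gr a) f' = f := cf_surj _ f
    have := hξ f'
    rw [gg_apply, gg_apply] at this
    exact this
  agr j h1 h2 A B hAB hX ξ hξ := by
    obtain ⟨X, hXA, hXB⟩ := hX
    have hne : (cs (le_of_gr A) A : YG k (N + 1) (j + 1)) ≠ cs (le_of_gr B) B := fun h => by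
      have h' := congrArg (fun Z : Gr k (Fin (N + 1)) (min (j + 1) (N + 1)) => Z.1) h
      exact hAB (Subtype.ext h')
    refine agr j h1 h2 (cs (le_of_gr A) A) (cs (le_of_gr B) B) hne
      ⟨cs (le_of_gr X) X, hXA, hXB⟩ ξ fun f => ?_
    obtain ⟨f', rfl⟩ : ∃ f', cf (le_of_gr A) f' = f := cf_surj _ f
    have := hξ f'
    rw [gg_apply, gg_apply] at this
    exact this

/-- **the rank count gives `Cal`** -/
theorem cal_of_rk {Γ H : Type} [Group Γ] [Group H] [∀ d, MulAction Γ (YG k (N + 1) d)]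
    [∀ d, ContinuousConstSMul Γ (YG k (N + 1) d)] [∀ j, MulAction H (YG k (N + 1) j)]
    {lamG : Γ →* (K →L[ℂ] K)} {π : H →* (K →L[ℂ] K)} {W : Set (K →L[ℂ] K)}
    {lam : YG k (N + 1) N → (C(YG k (N + 1) N, ℂ) →⋆ₐ[ℂ] (K →L[ℂ] K))}
    {bet : YG k (N + 1) 1 → (C(YG k (N + 1) 1, ℂ) →⋆ₐ[ℂ] (K →L[ℂ] K))}
    (hO : H618.RkOut N IG IG Γ H lamG π W lam bet G')
    (agr₁ : ∀ a b : YG k (N + 1) 1, a ≠ b → ∀ ξ : K, (∀ f, G' 1 a f ξ = G' 1 b f ξ) → ξ = 0) :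
    Cal (gg G') :=
  cal_of hO.com hO.inc agr₁ hO.agr

end main

end Vale.Agent.P092.H218.NC
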