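import Vale.Agent.P092.H218.NRes

/-!
P092 (helper218), Team N, block [N-GAPB] (3b): the contradiction. Abstract group, real numbers
only: if the limits of the masses `lm (χ F)` exist along the filter `cc` of `S` (Howe–Moore), then
the masses of the middle gaps are tight.
-/

set_option linter.all false

open Filter Topology

namespace Vale.Agent.P092.H218.NR

open Vale.Agent.P092.H200 Vale.Agent.P092.H538 Vale.Agent.P092.H553 Vale.Agent.P092.H761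
open Vale.Agent.P092.H515

section fin

variable {Γ 𝔾 S J : Type} [Group Γ] [DecidableEq Γ] [Group 𝔾] [Group S] [Fintype J] [DecidableEq J]
  {t : ℝ} {mass : 𝔾 → (Γ → ℝ) → ℝ} {Cpt : Set 𝔾 → Prop} {Ping : (p : ℕ) → (Fin p → 𝔾) → Prop}
  {r : ℕ} {gap : J → Γ → ℝ} {cl : J → Fin r} {z : ℕ → 𝔾} {σ : S →* 𝔾} {U : Ultrafilter ℕ}
  {χ : ℕ → Γ → ℝ} {i₀ : J} {μ : ℝ}

/-- slow cut-offs carried by the elements with a large gap `i₀` -/
structure Cut (gap : J → Γ → ℝ) (i₀ : J) (U : Ultrafilter ℕ) (χ : ℕ → Γ → ℝ) : Prop where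
  mem : ∀ N g, 0 ≤ χ N g ∧ χ N g ≤ 1
  slow : ∀ a b : Γ, Usm U (fun N g => χ N (a * g * b) - χ N g)
  large : ∀ R : ℝ, ∀ᶠ N in U, ∀ g, χ N g ≠ 0 → R ≤ gap i₀ g

/-- the limit masses with cut-offs -/
noncomputable def lm (mass : 𝔾 → (Γ → ℝ) → ℝ) (U : Ultrafilter ℕ) (z : ℕ → 𝔾) (χ : ℕ → Γ → ℝ)
    (c : 𝔾) (F : Γ → ℝ) : ℝ := ul U (fun N => mass (z N * c) (fun g => χ N g * F g))

theorem Cut.abs (hC : Cut gap i₀ U χ) (N : ℕ) (g : Γ) : |χ N g| ≤ 1 := by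
  rw [abs_of_nonneg (hC.mem N g).1]; exact (hC.mem N g).2

theorem Cut.mul_abs (hC : Cut gap i₀ U χ) {F : Γ → ℝ} {C : ℝ} (hF : ∀ g, |F g| ≤ C) (N : ℕ)
    (g : Γ) : |χ N g * F g| ≤ C := by
  rw [_root_.abs_mul]
  have h1 := hC.abs N g
  have h2 := hF g
  have h3 := abs_nonneg (F g)
  nlinarith [abs_nonneg (χ N g)]

theorem lm_tendsto (h : SharpData t mass Cpt Ping) (hC : Cut gap i₀ U χ) (c : 𝔾) {F : Γ → ℝ}
    {C : ℝ} (hF : ∀ g, |F g| ≤ C) :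
    Tendsto (fun N => mass (z N * c) (fun g => χ N g * F g)) U (𝓝 (lm mass U z χ c F)) :=
  tendsto_ul (C := C * t) fun N => mass_abs h _ (hC.mul_abs hF N)

theorem one_tendsto (h : SharpData t mass Cpt Ping) (hC : Cut gap i₀ U χ)
    (hlim : Tendsto (fun N => mass (z N) (χ N)) U (𝓝 μ)) {c : 𝔾} (hc : ∀ N, z N * c = c * z N) :
    Tendsto (fun N => mass (z N * c) (χ N)) U (𝓝 μ) := by
  have h1 := h.inv U z c hc χ hC.mem fun u => by
    have := hC.slow 1 u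
    simpa only [one_mul] using this
  have h2 := h1.add hlim
  rw [zero_add] at h2
  refine h2.congr fun N => ?_
  ring

/-- Lower bound: at most two large classes of gaps. -/
theorem lm_low (h : SharpData t mass Cpt Ping) (hC : Cut gap i₀ U χ)
    (hlim : Tendsto (fun N => mass (z N) (χ N)) U (𝓝 μ)) {c : 𝔾} (hc : ∀ N, z N * c = c * z N)
    {F : Γ → ℝ} (hF : ∀ g, 0 ≤ F g ∧ F g ≤ 1) {T ε R0 δ : ℝ} (hε0 : 0 ≤ ε) (hε1 : ε ≤ 1)
    (hT : ∀ g, T ≤ gap i₀ g → ((∀ x, x < cl i₀ → x ∉ big gap cl R0 g) ∨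
      (∀ x, cl i₀ < x → x ∉ big gap cl R0 g)) → 1 - ε ≤ F g)
    (h3 : ∀ N, mass (z N * c) (ind fun g => 3 ≤ (big gap cl R0 g).card) ≤ δ) :
    (1 - ε) * μ - δ ≤ lm mass U z χ c F := by
  classical
  have hFb : ∀ g, |F g| ≤ 1 := fun g => by rw [abs_of_nonneg (hF g).1]; exact (hF g).2
  have h1 := one_tendsto h hC hlim hc
  have h2 : Tendsto (fun N => (1 - ε) * mass (z N * c) (χ N) - δ) U (𝓝 ((1 - ε) * μ - δ)) :=
    (h1.const_mul _).sub_const _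
  refine le_of_tendsto_of_tendsto h2 (lm_tendsto h hC c hFb) ?_
  filter_upwards [hC.large (max T R0)] with N hN
  obtain ⟨q, hq⟩ : ∃ q : Γ → ℝ, q = ind fun g => 3 ≤ (big gap cl R0 g).card := ⟨_, rfl⟩
  have hqb : ∀ g, |q g| ≤ 1 := fun g => by rw [hq]; exact abs_ind_le _ _
  have hb1 : ∀ g, |(1 - ε) * χ N g| ≤ 1 := fun g => by
    rw [_root_.abs_mul, abs_of_nonneg (by linarith : 0 ≤ 1 - ε)]
    exact mul_le_one₀ (by linarith) (abs_nonneg _) (hC.abs N g)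
  have hb2 : ∀ g, |(-1 : ℝ) * q g| ≤ 1 := fun g => by
    rw [_root_.abs_mul, abs_neg, abs_one, one_mul]; exact hqb g
  have e1 : mass (z N * c) (fun g => (1 - ε) * χ N g + (-1) * q g) =
      (1 - ε) * mass (z N * c) (χ N) + (-1) * mass (z N * c) q := by
    rw [h.add _ _ _ 1 hb1 hb2, h.smul _ _ 1 _ (hC.abs N), h.smul _ _ 1 _ hqb]
  have e2 : mass (z N * c) (fun g => (1 - ε) * χ N g + (-1) * q g) ≤
      mass (z N * c) (fun g => χ N g * F g) := by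
    refine h.mono _ _ _ 2 (fun g => ?_) (fun g => ?_) (fun g => ?_)
    · refine (abs_add_le _ _).trans ?_
      have := hb1 g
      have := hb2 g
      linarith
    · exact (hC.mul_abs hFb N g).trans (by norm_num)
    · by_cases h0 : χ N g = 0
      · rw [h0, mul_zero, zero_mul, zero_add, hq]
        have := ind_nonneg (fun g => 3 ≤ (big gap cl R0 g).card) g
        linarith
      · have hlarge := hN g h0
        have hχ0 := (hC.mem N g).1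
        have hχ1 := (hC.mem N g).2
        have hF0 := (hF g).1
        by_cases h4 : 3 ≤ (big gap cl R0 g).card
        · rw [hq, ind_pos (P := fun g => 3 ≤ (big gap cl R0 g).card) h4]
          nlinarith [mul_nonneg hχ0 hF0]
        · rw [hq, ind_neg (P := fun g => 3 ≤ (big gap cl R0 g).card) h4, mul_zero, add_zero,
            mul_comm]
          refine mul_le_mul_of_nonneg_left (hT g ((le_max_left _ _).trans hlarge) ?_) hχ0
          by_contra hcon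
          push Not at hcon
          obtain ⟨⟨x, hx1, hx2⟩, ⟨y, hy1, hy2⟩⟩ := hcon
          have hi : cl i₀ ∈ big gap cl R0 g :=
            mem_big.mpr ⟨i₀, rfl, (le_max_right _ _).trans hlarge⟩
          refine h4 ?_
          have hsub : ({x, cl i₀, y} : Finset (Fin r)) ⊆ big gap cl R0 g := by
            intro a ha
            simp only [Finset.mem_insert, Finset.mem_singleton] at ha
            rcases ha with rfl | rfl | rfl
            · exact hx2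
            · exact hi
            · exact hy2
          refine le_trans ?_ (Finset.card_le_card hsub)
          rw [Finset.card_insert_of_notMem, Finset.card_insert_of_notMem,
            Finset.card_singleton]
          · rw [Finset.mem_singleton]; exact hy1.ne
          · simp only [Finset.mem_insert, Finset.mem_singleton, not_or]
            exact ⟨hx1.ne, (hx1.trans hy1).ne⟩
  have h5 := h3 N
  rw [← hq] at h5
  linarith

/-- Upper bound: a set where all gaps are large. -/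
theorem lm_up (h : SharpData t mass Cpt Ping) (hC : Cut gap i₀ U χ)
    (hlim : Tendsto (fun N => mass (z N) (χ N)) U (𝓝 μ)) {c : 𝔾} (hc : ∀ N, z N * c = c * z N)
    {F : Γ → ℝ} (hF : ∀ g, 0 ≤ F g ∧ F g ≤ 1) {ε R1 R : ℝ} (hε0 : 0 ≤ ε) (hε1 : ε ≤ 1)
    (hR1 : ∀ g, (∀ x, x ∈ big gap cl R1 g) → F g ≤ ε) (hR : R1 ≤ R) :
    lm mass U z χ c F ≤
      μ - (1 - ε) * lm mass U z χ c (ind fun g => ∀ x, x ∈ big gap cl R g) := by
  classical
  have hFb : ∀ g, |F g| ≤ 1 := fun g => by rw [abs_of_nonneg (hF g).1]; exact (hF g).2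
  obtain ⟨q, hq⟩ : ∃ q : Γ → ℝ, q = ind fun g => ∀ x, x ∈ big gap cl R g := ⟨_, rfl⟩
  have hqb : ∀ g, |q g| ≤ 1 := fun g => by rw [hq]; exact abs_ind_le _ _
  rw [← hq]
  have h1 := one_tendsto h hC hlim hc
  have h2 : Tendsto (fun N => mass (z N * c) (χ N) - (1 - ε) * mass (z N * c) (fun g => χ N g * q g))
      U (𝓝 (μ - (1 - ε) * lm mass U z χ c q)) :=
    h1.sub ((lm_tendsto h hC c hqb).const_mul _)
  refine le_of_tendsto_of_tendsto' (lm_tendsto h hC c hFb) h2 fun N => ?_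
  have hb1 : ∀ g, |(-(1 - ε)) * (χ N g * q g)| ≤ 1 := fun g => by
    rw [_root_.abs_mul, abs_neg, abs_of_nonneg (by linarith : 0 ≤ 1 - ε)]
    exact mul_le_one₀ (by linarith) (abs_nonneg _) (hC.mul_abs hqb N g)
  have e1 : mass (z N * c) (fun g => χ N g + (-(1 - ε)) * (χ N g * q g)) =
      mass (z N * c) (χ N) + (-(1 - ε)) * mass (z N * c) (fun g => χ N g * q g) := by
    rw [h.add _ _ _ 1 (hC.abs N) hb1, h.smul _ _ 1 _ (hC.mul_abs hqb N)]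
  have e2 : mass (z N * c) (fun g => χ N g * F g) ≤
      mass (z N * c) (fun g => χ N g + (-(1 - ε)) * (χ N g * q g)) := by
    refine h.mono _ _ _ 2 (fun g => ?_) (fun g => ?_) (fun g => ?_)
    · exact (hC.mul_abs hFb N g).trans (by norm_num)
    · refine (abs_add_le _ _).trans ?_
      have := hC.abs N g
      have := hb1 g
      linarith
    · have hχ0 := (hC.mem N g).1
      by_cases h4 : ∀ x, x ∈ big gap cl R g
      · rw [hq, ind_pos (P := fun g => ∀ x, x ∈ big gap cl R g) h4]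
        have h5 := hR1 g fun x => big_anti hR g (h4 x)
        nlinarith
      · rw [hq, ind_neg (P := fun g => ∀ x, x ∈ big gap cl R g) h4]
        have := (hF g).2
        nlinarith
  linarith

/-- Elements of compact sets do not make two classes of gaps large. -/
theorem lm_cpt (h : SharpData t mass Cpt Ping) (hg : Gaps gap cl) (hC : Cut gap i₀ U χ)
    {𝒦 : Set 𝔾} (hK : Cpt 𝒦) (h1 : 1 ∈ 𝒦) (hr : 2 ≤ r)
    (hlev1 : ∀ ε : ℝ, 0 < ε → ∃ R : ℝ, ∀ N, mass (z N) (ind fun g => 2 ≤ (big gap cl R g).card) ≤ ε)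
    {ε : ℝ} (hε : 0 < ε) : ∃ R0 : ℝ, ∀ R, R0 ≤ R → ∀ c ∈ 𝒦, (∀ N, z N * c = c * z N) →
      lm mass U z χ c (ind fun g => ∀ x, x ∈ big gap cl R g) ≤ ε := by
  classical
  obtain ⟨F, C, hC0, hF⟩ := h.unif 𝒦 hK (ε / 2) (by positivity)
  obtain ⟨δ, hδ⟩ : ∃ δ : ℝ, δ = ε / 2 / (C + 1) := ⟨_, rfl⟩
  have hδ0 : 0 < δ := by rw [hδ]; positivity
  obtain ⟨R', hR'⟩ := hlev1 δ hδ0
  choose Cq hCq using hg.quasi
  obtain ⟨CF, hCF⟩ : ∃ CF : ℝ, ∀ a ∈ F, ∀ b ∈ F, Cq a b ≤ CF := by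
    refine ⟨∑ a ∈ F, ∑ b ∈ F, |Cq a b|, fun a ha b hb => (le_abs_self _).trans ?_⟩
    refine le_trans ?_ (Finset.single_le_sum (f := fun a => ∑ b ∈ F, |Cq a b|)
      (fun a _ => Finset.sum_nonneg fun b _ => abs_nonneg _) ha)
    exact Finset.single_le_sum (f := fun b => |Cq a b|) (fun b _ => abs_nonneg _) hb
  refine ⟨R' + CF, fun R hR c hc hcomm => ?_⟩
  have hqb : ∀ g, |ind (fun g => ∀ x, x ∈ big gap cl R g) g| ≤ 1 := fun g => abs_ind_le _ _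
  refine le_of_tendsto' (lm_tendsto h hC c hqb) fun N => ?_
  have e1 : mass (z N * c) (fun g => χ N g * ind (fun g => ∀ x, x ∈ big gap cl R g) g) ≤
      mass (z N * c) (ind fun g => ∀ x, x ∈ big gap cl R g) := by
    refine h.mono _ _ _ 1 (hC.mul_abs hqb N) hqb fun g => ?_
    exact mul_le_of_le_one_left (ind_nonneg _ _) (hC.mem N g).2
  have e2 : z N * c = c * z N * 1 := by rw [mul_one, hcomm]
  rw [e2] at e1
  rw [e2]
  refine e1.trans ((hF c hc 1 h1 (z N) _).trans ?_)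
  have e3 : mass (z N) (ind fun x => ∃ a ∈ F, ∃ b ∈ F, ∀ y, y ∈ big gap cl R (a * x * b)) ≤
      mass (z N) (ind fun g => 2 ≤ (big gap cl R' g).card) := by
    refine h.ind_mono _ fun g hg' => ?_
    obtain ⟨a, ha, b, hb, hab⟩ := hg'
    have h2 : (Finset.univ : Finset (Fin r)) ⊆ big gap cl R' g := by
      intro y _
      obtain ⟨i, hi1, hi2⟩ := mem_big.mp (hab y)
      refine mem_big.mpr ⟨i, hi1, ?_⟩
      have h3 := (abs_le.mp (hCq a b i g)).2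
      have h4 := hCF a ha b hb
      linarith
    have h3 := Finset.card_le_card h2
    rw [Finset.card_univ, Fintype.card_fin] at h3
    omega
  have e4 : C * mass (z N) (ind fun x => ∃ a ∈ F, ∃ b ∈ F, ∀ y, y ∈ big gap cl R (a * x * b)) ≤
      C * δ := mul_le_mul_of_nonneg_left (e3.trans (hR' N)) hC0
  have e5 : C * δ ≤ ε / 2 := by
    rw [hδ, mul_div_assoc', div_le_iff₀ (by positivity)]
    nlinarith
  linarith

/-- **The contradiction.** -/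
theorem no_mid (h : SharpData t mass Cpt Ping) (hg : Gaps gap cl) (hC : Cut gap i₀ U χ)
    (hμ : 0 < μ) (hlim : Tendsto (fun N => mass (z N) (χ N)) U (𝓝 μ))
    (hσ : ∀ N s, z N * σ s = σ s * z N) (hr : 2 ≤ r)
    (hres : ∃ c : ℝ, 0 < c ∧ ∀ R : ℝ, ∃ s : S,
      c ≤ lm mass U z χ (σ s) (ind fun g => ∀ x, x ∈ big gap cl R g))
    {cc : Filter S} (hcc : ∀ A ∈ cc, ∃ 𝒦 : Set S, Cpt (σ '' 𝒦) ∧ 1 ∈ 𝒦 ∧ 𝒦ᶜ ⊆ A)
    (hlev1 : ∀ ε : ℝ, 0 < ε → ∃ R : ℝ, ∀ N, mass (z N) (ind fun g => 2 ≤ (big gap cl R g).card) ≤ ε)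
    {e : ℕ → S} (he : Tendsto e atTop cc)
    (hlev2 : ∀ ε : ℝ, 0 < ε → ∃ R : ℝ, ∀ N M,
      mass (z N * σ (e M)) (ind fun g => 3 ≤ (big gap cl R g).card) ≤ ε)
    (htest : ∀ ε : ℝ, 0 < ε → ∀ R0 : ℝ, ∃ F : Γ → ℝ, (∀ g, 0 ≤ F g ∧ F g ≤ 1) ∧
      (∃ T : ℝ, ∀ g, T ≤ gap i₀ g → ((∀ x, x < cl i₀ → x ∉ big gap cl R0 g) ∨
        (∀ x, cl i₀ < x → x ∉ big gap cl R0 g)) → 1 - ε ≤ F g) ∧
      (∃ R1 : ℝ, ∀ g, (∀ x, x ∈ big gap cl R1 g) → F g ≤ ε) ∧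
      ∃ L : ℝ, Tendsto (fun s : S => lm mass U z χ (σ s) F) cc (𝓝 L)) : False := by
  obtain ⟨c, hc0, hres⟩ := hres
  obtain ⟨ε, hε⟩ : ∃ ε : ℝ, ε = min (1 / 2) (c / (8 * (2 + μ))) := ⟨_, rfl⟩
  have hε0 : 0 < ε := by rw [hε]; exact lt_min (by norm_num) (by positivity)
  have hε1 : ε ≤ 1 / 2 := by rw [hε]; exact min_le_left _ _
  have hε2 : ε * (2 + μ) ≤ c / 8 := by
    have : ε ≤ c / (8 * (2 + μ)) := by rw [hε]; exact min_le_right _ _
    calc ε * (2 + μ) ≤ c / (8 * (2 + μ)) * (2 + μ) :=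
          mul_le_mul_of_nonneg_right this (by positivity)
      _ = c / 8 := by field_simp
  obtain ⟨R0, hR0⟩ := hlev2 ε hε0
  obtain ⟨F, hF, ⟨T, hT⟩, ⟨R1, hR1⟩, L, hL⟩ := htest ε hε0 R0
  -- lower bound
  have hlow : (1 - ε) * μ - ε ≤ L := by
    refine ge_of_tendsto' (hL.comp he) fun M => ?_
    exact lm_low h hC hlim (fun N => hσ N (e M)) hF hε0.le (by linarith) hT (hR0 · M)
  -- upper bound
  have hA : {s : S | L - ε < lm mass U z χ (σ s) F} ∈ cc := by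
    have := hL.eventually (lt_mem_nhds (show L - ε < L by linarith))
    exact this
  obtain ⟨𝒦, hK1, hK2, hK3⟩ := hcc _ hA
  obtain ⟨R2, hR2⟩ := lm_cpt h hg hC (𝒦 := σ '' 𝒦) hK1 ⟨1, hK2, map_one σ⟩ hr hlev1
    (ε := c / 2) (by positivity)
  obtain ⟨s, hs⟩ := hres (max R1 R2)
  have hsK : s ∉ 𝒦 := by
    intro hsK
    have h1 := hR2 (max R1 R2) (le_max_right _ _) (σ s) ⟨s, hsK, rfl⟩ (fun N => hσ N s)
    linarith
  have h2 : L - ε < lm mass U z χ (σ s) F := hK3 hsK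
  have h3 := lm_up h hC hlim (fun N => hσ N s) hF hε0.le (by linarith) hR1 (le_max_left R1 R2)
  have h4 : (1 - ε) * c ≤
      (1 - ε) * lm mass U z χ (σ s) (ind fun g => ∀ x, x ∈ big gap cl (max R1 R2) g) :=
    mul_le_mul_of_nonneg_left hs (by linarith)
  nlinarith

end fin

/-! ### Cut-offs along a sequence of exponents -/

section cut

variable {Γ J : Type} [Group Γ] [Fintype J] [DecidableEq J] {r : ℕ} {gap : J → Γ → ℝ}
  {cl : J → Fin r}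

/-- The standard cut-offs. -/
theorem cut_up (hg : Gaps gap cl) (i₀ : J) {U : Ultrafilter ℕ} {τ : ℕ → ℝ} (hτ0 : ∀ N, 0 < τ N)
    (hτ : Tendsto τ U atTop) : Cut gap i₀ U (fun N => up gap {i₀} (τ N)) where
  mem N g := up_mem _ _ _ _
  slow a b := by
    intro δ hδ
    obtain ⟨C, hC⟩ := hg.quasi a b
    obtain ⟨M, hM⟩ : ∃ M : ℝ, M = (Fintype.card J : ℝ) * |C| / δ := ⟨_, rfl⟩
    filter_upwards [hτ.eventually (eventually_ge_atTop M)] with N hN g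
    have h1 := up_lip (θ := {i₀}) (h := a * g * b) (g := g) (hτ0 N) (abs_nonneg C)
      fun j => (hC j g).trans (le_abs_self C)
    refine h1.trans ?_
    rw [hM, div_le_iff₀ hδ] at hN
    rw [mul_div_assoc', div_le_iff₀ (hτ0 N)]
    linarith
  large R := by
    filter_upwards [hτ.eventually (eventually_ge_atTop R)] with N hN g hg'
    exact hN.trans (up_ne (hτ0 N) hg' i₀ (Finset.mem_singleton_self _))

end cut

section final

variable {Γ 𝔾 S J : Type} [Group Γ] [DecidableEq Γ] [Group 𝔾] [Group S] [Fintype J] [DecidableEq J]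
  {t : ℝ} {mass : 𝔾 → (Γ → ℝ) → ℝ} {Cpt : Set 𝔾 → Prop} {Ping : (p : ℕ) → (Fin p → 𝔾) → Prop}
  {r m : ℕ} {gap : J → Γ → ℝ} {cl : J → Fin r} {b : Fin m → ℕ → 𝔾} {𝒦 : Fin m → Set 𝔾}
  {σ : S →* 𝔾} {i₀ : J}

/-- The input from Howe–Moore (`z N = b^N`, limits of the masses `z N * σ s` as `s → ∞` in `S`) and
from the test functions. -/
def HMI (mass : 𝔾 → (Γ → ℝ) → ℝ) (gap : J → Γ → ℝ) (cl : J → Fin r) (i₀ : J) (z : ℕ → 𝔾)
    (σ : S →* 𝔾) (cc : Filter S) : Prop :=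
  ∀ U : Ultrafilter ℕ, (U : Filter ℕ) ≤ atTop → ∀ τ : ℕ → ℝ, (∀ N, 0 < τ N) →
    Tendsto τ atTop atTop → ∀ ε : ℝ, 0 < ε → ∀ R0 : ℝ, ∃ F : Γ → ℝ, (∀ g, 0 ≤ F g ∧ F g ≤ 1) ∧
      (∃ T : ℝ, ∀ g, T ≤ gap i₀ g → ((∀ x, x < cl i₀ → x ∉ big gap cl R0 g) ∨
        (∀ x, cl i₀ < x → x ∉ big gap cl R0 g)) → 1 - ε ≤ F g) ∧
      (∃ R1 : ℝ, ∀ g, (∀ x, x ∈ big gap cl R1 g) → F g ≤ ε) ∧
      ∃ L : ℝ, Tendsto (fun s : S => lm mass U z (fun N => up gap {i₀} (τ N)) (σ s) F) cc (𝓝 L)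

/-- The residual chain. -/
def Resid (mass : 𝔾 → (Γ → ℝ) → ℝ) (gap : J → Γ → ℝ) (cl : J → Fin r) (i₀ : J) (z : ℕ → 𝔾)
    (σ : S →* 𝔾) : Prop :=
  ∀ (U : Ultrafilter ℕ) (χ : ℕ → Γ → ℝ), (U : Filter ℕ) ≤ atTop → Cut gap i₀ U χ → ∀ μ : ℝ, 0 < μ →
    Tendsto (fun N => mass (z N) (χ N)) U (𝓝 μ) →
    ∃ c : ℝ, 0 < c ∧ ∀ R : ℝ, ∃ s : S,
      c ≤ lm mass U z χ (σ s) (ind fun g => ∀ x, x ∈ big gap cl R g)

/-- **The middle gaps are tight along `b^N`.** -/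
theorem mid_tight (h : SharpData t mass Cpt Ping) (hg : Gaps gap cl)
    (hgeo : ∀ θ : Finset J, θ.Nonempty → (∀ i ∈ θ, ∀ j, cl i = cl j → j ∈ θ) → Geo gap θ)
    (hch : GChain Cpt Ping m b 𝒦) (hm : 2 ≤ m) (hrm : r = m) (h0 : 0 < m) (h1 : 1 < m)
    (hσ : ∀ N s, b ⟨0, h0⟩ N * σ s = σ s * b ⟨0, h0⟩ N)
    (hres : Resid mass gap cl i₀ (b ⟨0, h0⟩) σ)
    {cc : Filter S} (hcc : ∀ A ∈ cc, ∃ 𝒦 : Set S, Cpt (σ '' 𝒦) ∧ 1 ∈ 𝒦 ∧ 𝒦ᶜ ⊆ A)
    {e : ℕ → S} (he : Tendsto e atTop cc) (heb : ∀ M, σ (e M) = b ⟨1, h1⟩ M)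
    (hHM : HMI mass gap cl i₀ (b ⟨0, h0⟩) σ cc) {ε : ℝ} (hε : 0 < ε) :
    ∃ R : ℝ, ∀ᶠ N in atTop, mass (b ⟨0, h0⟩ N) (ind fun g => R ≤ gap i₀ g) ≤ ε := by
  classical
  by_contra hcon
  push Not at hcon
  have hcon' : ∀ k : ℕ, ∃ᶠ N in atTop,
      ε < mass (b ⟨0, h0⟩ N) (ind fun g => 2 * ((k : ℝ) + 1) ≤ gap i₀ g) := fun k => hcon _
  obtain ⟨φ, hφ, hφm⟩ := extraction_forall_of_frequently hcon'
  obtain ⟨U, hU⟩ : ∃ U : Ultrafilter ℕ, U = (hyperfilter ℕ).map φ := ⟨_, rfl⟩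
  have hUt : (U : Filter ℕ) ≤ atTop := by
    rw [hU]
    exact hφ.tendsto_atTop.mono_left Nat.hyperfilter_le_atTop
  obtain ⟨ρ, hρ⟩ : ∃ ρ : ℕ → ℕ, ∀ N, ρ N = Nat.findGreatest (fun k => φ k ≤ N) N :=
    ⟨_, fun _ => rfl⟩
  have hρφ : ∀ k, ρ (φ k) = k := by
    intro k
    rw [hρ, Nat.findGreatest_eq_iff]
    refine ⟨hφ.le_apply, fun _ => le_rfl, fun n hn _ => ?_⟩
    rw [not_le]
    exact hφ hn
  have hρt : Tendsto ρ atTop atTop := by
    refine tendsto_atTop.2 fun K => ?_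
    filter_upwards [eventually_ge_atTop (φ K), eventually_ge_atTop K] with N hN1 hN2
    rw [hρ]
    exact Nat.le_findGreatest hN2 hN1
  obtain ⟨τ, hτ⟩ : ∃ τ : ℕ → ℝ, ∀ N, τ N = (ρ N : ℝ) + 1 := ⟨_, fun _ => rfl⟩
  have hτ0 : ∀ N, 0 < τ N := fun N => by rw [hτ]; positivity
  have hτt : Tendsto τ atTop atTop := by
    have h1 : Tendsto (fun N => (ρ N : ℝ) + 1) atTop atTop :=
      tendsto_atTop_add_const_right _ _ (tendsto_natCast_atTop_atTop.comp hρt)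
    exact h1.congr fun N => (hτ N).symm
  have hC : Cut gap i₀ U (fun N => up gap {i₀} (τ N)) := cut_up hg i₀ hτ0 (hτt.mono_left hUt)
  have hup : ∀ N g, |up gap {i₀} (τ N) g| ≤ 1 := fun N g => by
    rw [abs_of_nonneg (up_mem _ _ _ _).1]; exact (up_mem _ _ _ _).2
  obtain ⟨μ, hμ⟩ : ∃ μ : ℝ, μ = ul U (fun N => mass (b ⟨0, h0⟩ N) (up gap {i₀} (τ N))) := ⟨_, rfl⟩
  have hlim : Tendsto (fun N => mass (b ⟨0, h0⟩ N) (up gap {i₀} (τ N))) U (𝓝 μ) := by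
    rw [hμ]
    exact tendsto_ul (C := 1 * t) fun N => mass_abs h _ (hup N)
  have hμ0 : ε ≤ μ := by
    refine ge_of_tendsto hlim ?_
    rw [hU, Ultrafilter.coe_map, eventually_map]
    refine Eventually.of_forall fun k => (hφm k).le.trans ?_
    refine h.mono _ _ _ 1 (fun g => abs_ind_le _ g) (hup _) fun g => ?_
    by_cases hk : 2 * ((k : ℝ) + 1) ≤ gap i₀ g
    · rw [ind_pos (P := fun g => 2 * ((k : ℝ) + 1) ≤ gap i₀ g) hk, up_eq_one (hτ0 _)]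
      intro j hj
      rw [Finset.mem_singleton] at hj
      rw [hj, hτ, hρφ]
      exact hk
    · rw [ind_neg (P := fun g => 2 * ((k : ℝ) + 1) ≤ gap i₀ g) hk]
      exact (up_mem _ _ _ _).1
  have hlev1 : ∀ ε : ℝ, 0 < ε → ∃ R : ℝ, ∀ N,
      mass (b ⟨0, h0⟩ N) (ind fun g => 2 ≤ (big gap cl R g).card) ≤ ε := fun ε hε =>
    start2 h hg hgeo hch hrm.le h0 hε
  have hlev2 : ∀ ε : ℝ, 0 < ε → ∃ R : ℝ, ∀ N M,
      mass (b ⟨0, h0⟩ N * σ (e M)) (ind fun g => 3 ≤ (big gap cl R g).card) ≤ ε := by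
    intro ε hε
    obtain ⟨R, hR⟩ := few_big h hg hgeo hch (j := 2) (n := 3) hm (by omega) hε
    refine ⟨R, fun N M => ?_⟩
    have h2 := hR _ (HS.step h1 M (HS.step h0 N HS.one))
    rwa [one_mul, ← heb] at h2
  exact no_mid h hg hC (hε.trans_le hμ0) hlim hσ (by omega) (hres U _ hUt hC μ (hε.trans_le hμ0) hlim)
    hcc hlev1 he hlev2 (hHM U hUt τ hτ0 hτt)

/-- **[N-GAPB], abstract form.** The two sets of the position condition. -/
theorem pos_tight (h : SharpData t mass Cpt Ping) (hg : Gaps gap cl)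
    (hgeo : ∀ θ : Finset J, θ.Nonempty → (∀ i ∈ θ, ∀ j, cl i = cl j → j ∈ θ) → Geo gap θ)
    (hch : GChain Cpt Ping m b 𝒦) (hm : 2 ≤ m) (hrm : r = m) (h0 : 0 < m) (h1 : 1 < m)
    (hσ : ∀ N s, b ⟨0, h0⟩ N * σ s = σ s * b ⟨0, h0⟩ N)
    {Mid : J → Prop} (hres : ∀ i₀, Mid i₀ → Resid mass gap cl i₀ (b ⟨0, h0⟩) σ)
    {cc : Filter S} (hcc : ∀ A ∈ cc, ∃ 𝒦 : Set S, Cpt (σ '' 𝒦) ∧ 1 ∈ 𝒦 ∧ 𝒦ᶜ ⊆ A)
    {e : ℕ → S} (he : Tendsto e atTop cc) (heb : ∀ M, σ (e M) = b ⟨1, h1⟩ M)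
    (hHM : ∀ i₀, Mid i₀ → HMI mass gap cl i₀ (b ⟨0, h0⟩) σ cc) {G2 H2 : Γ → ℝ}
    (hGH : ∀ R : ℝ, ∃ ρ : ℝ, ∀ g, ρ < G2 g → ρ < H2 g →
      (2 ≤ (big gap cl R g).card ∨ ∃ i, Mid i ∧ R ≤ gap i g)) {ε : ℝ} (hε : 0 < ε) :
    ∃ ρ : ℝ, ∀ᶠ N in atTop, mass (b ⟨0, h0⟩ N) (ind fun g => ρ < G2 g ∧ ρ < H2 g) ≤ ε := by
  classical
  obtain ⟨δ, hδ⟩ : ∃ δ : ℝ, δ = ε / 2 / ((Fintype.card J : ℝ) + 1) := ⟨_, rfl⟩
  have hδ0 : 0 < δ := by rw [hδ]; positivity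
  obtain ⟨R1, hR1⟩ := start2 h hg hgeo hch hrm.le h0 (half_pos hε)
  have key : ∀ i : J, ∃ R : ℝ, Mid i → ∀ᶠ N in atTop,
      mass (b ⟨0, h0⟩ N) (ind fun g => R ≤ gap i g) ≤ δ := by
    intro i
    by_cases hi : Mid i
    · obtain ⟨R, hR⟩ := mid_tight h hg hgeo hch hm hrm h0 h1 hσ (hres i hi) hcc he heb (hHM i hi) hδ0
      exact ⟨R, fun _ => hR⟩
    · exact ⟨0, fun h => absurd h hi⟩
  choose Ri hRi using key
  obtain ⟨R, hR⟩ : ∃ R : ℝ, R = max R1 (∑ i, |Ri i|) := ⟨_, rfl⟩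
  have hRR : ∀ i, Ri i ≤ R := fun i => by
    rw [hR]
    refine le_trans ((le_abs_self _).trans ?_) (le_max_right _ _)
    exact Finset.single_le_sum (f := fun i => |Ri i|) (fun i _ => abs_nonneg _) (Finset.mem_univ i)
  obtain ⟨ρ, hρ⟩ := hGH R
  refine ⟨ρ, ?_⟩
  have hev : ∀ᶠ N in atTop, ∀ i, Mid i → mass (b ⟨0, h0⟩ N) (ind fun g => Ri i ≤ gap i g) ≤ δ := by
    rw [eventually_all]
    intro i
    by_cases hi : Mid i
    · filter_upwards [hRi i hi] with N hN _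
      exact hN
    · exact Eventually.of_forall fun N h => absurd h hi
  filter_upwards [hev] with N hN
  -- union bound
  obtain ⟨Q, hQ⟩ : ∃ Q : Option J → Γ → Prop, Q = fun o g =>
      match o with
      | none => 2 ≤ (big gap cl R1 g).card
      | some i => Mid i ∧ Ri i ≤ gap i g := ⟨_, rfl⟩
  have h2 := h.union (b ⟨0, h0⟩ N) (Finset.univ : Finset (Option J))
    (fun g => ρ < G2 g ∧ ρ < H2 g) Q fun g hg' => by
      rcases hρ g hg'.1 hg'.2 with h3 | ⟨i, hi, h3⟩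
      · refine ⟨none, Finset.mem_univ _, ?_⟩
        rw [hQ]
        exact h3.trans (Finset.card_le_card (big_anti (by rw [hR]; exact le_max_left _ _) g))
      · refine ⟨some i, Finset.mem_univ _, ?_⟩
        rw [hQ]
        exact ⟨hi, (hRR i).trans h3⟩
  refine h2.trans ?_
  rw [Fintype.sum_option]
  have h3 : mass (b ⟨0, h0⟩ N) (ind (Q none)) ≤ ε / 2 := by rw [hQ]; exact hR1 N
  have h4 : ∀ i, mass (b ⟨0, h0⟩ N) (ind (Q (some i))) ≤ δ := by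
    intro i
    by_cases hi : Mid i
    · refine (h.ind_mono _ fun g hg' => ?_).trans (hN i hi)
      rw [hQ] at hg'
      exact hg'.2
    · have e1 : ind (Q (some i)) = fun _ : Γ => (0 : ℝ) := by
        funext g
        refine ind_neg (P := Q (some i)) fun hg' => ?_
        rw [hQ] at hg'
        exact hi hg'.1
      rw [e1, h.zero]
      exact hδ0.le
  have h5 : ∑ i, mass (b ⟨0, h0⟩ N) (ind (Q (some i))) ≤ ε / 2 := by
    refine (Finset.sum_le_sum fun i _ => h4 i).trans ?_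
    rw [Finset.sum_const, nsmul_eq_mul, Finset.card_univ, hδ, mul_div_assoc', div_le_iff₀ (by positivity)]
    have : (0 : ℝ) ≤ Fintype.card J := by positivity
    nlinarith
  linarith

end final

end Vale.Agent.P092.H218.NR
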