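import Vale.Agent.P092.H515.Start

/-!
P092 (helper218), Team N, block [N-GAPB] (3a): the data of the sharp rank theorem pass to
ultralimits `s ↦ lim_𝒰 mass (z N * σ s) (χ N * F)` with slow cut-offs `χ N` (`σ s` commutes with
all `z N`). Consequence: the residual chain.
-/

set_option linter.all false

open Filter Topology

namespace Vale.Agent.P092.H218.NR

open Vale.Agent.P092.H200 Vale.Agent.P092.H538 Vale.Agent.P092.H553 Vale.Agent.P092.H761
open Vale.Agent.P092.H515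

/-! ### Ultralimits of bounded real sequences -/

section ulim

/-- ultralimit -/
noncomputable def ul (𝒰 : Ultrafilter ℕ) (a : ℕ → ℝ) : ℝ := limUnder (𝒰 : Filter ℕ) a

theorem tendsto_ul {𝒰 : Ultrafilter ℕ} {a : ℕ → ℝ} {C : ℝ} (h : ∀ n, |a n| ≤ C) :
    Tendsto a 𝒰 (𝓝 (ul 𝒰 a)) := by
  have h1 : (𝒰.map a : Filter ℝ) ≤ 𝓟 (Set.Icc (-C) C) := by
    rw [le_principal_iff]
    exact Filter.mem_map.2 (Filter.univ_mem' fun n => abs_le.1 (h n))
  obtain ⟨x, -, hx⟩ := isCompact_Icc.ultrafilter_le_nhds (𝒰.map a) h1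
  exact tendsto_nhds_limUnder ⟨x, hx⟩

theorem ul_eq {𝒰 : Ultrafilter ℕ} {a : ℕ → ℝ} {x : ℝ} (h : Tendsto a 𝒰 (𝓝 x)) : ul 𝒰 a = x :=
  h.limUnder_eq

theorem ul_le {𝒰 : Ultrafilter ℕ} {a a' : ℕ → ℝ} {C C' : ℝ} (h : ∀ n, |a n| ≤ C)
    (h' : ∀ n, |a' n| ≤ C') (hle : ∀ᶠ n in 𝒰, a n ≤ a' n) : ul 𝒰 a ≤ ul 𝒰 a' :=
  le_of_tendsto_of_tendsto (tendsto_ul h) (tendsto_ul h') hle

theorem ul_le_of {𝒰 : Ultrafilter ℕ} {a : ℕ → ℝ} {C x : ℝ} (h : ∀ n, |a n| ≤ C)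
    (hle : ∀ᶠ n in 𝒰, a n ≤ x) : ul 𝒰 a ≤ x :=
  le_of_tendsto (tendsto_ul h) hle

theorem le_ul_of {𝒰 : Ultrafilter ℕ} {a : ℕ → ℝ} {C x : ℝ} (h : ∀ n, |a n| ≤ C)
    (hle : ∀ᶠ n in 𝒰, x ≤ a n) : x ≤ ul 𝒰 a :=
  ge_of_tendsto (tendsto_ul h) hle

theorem ul_add {𝒰 : Ultrafilter ℕ} {a a' : ℕ → ℝ} {C C' : ℝ} (h : ∀ n, |a n| ≤ C)
    (h' : ∀ n, |a' n| ≤ C') : ul 𝒰 (fun n => a n + a' n) = ul 𝒰 a + ul 𝒰 a' :=
  ul_eq ((tendsto_ul h).add (tendsto_ul h'))

theorem ul_mul {𝒰 : Ultrafilter ℕ} {a : ℕ → ℝ} {C : ℝ} (c : ℝ) (h : ∀ n, |a n| ≤ C) :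
    ul 𝒰 (fun n => c * a n) = c * ul 𝒰 a :=
  ul_eq ((tendsto_ul h).const_mul c)

theorem ul_const {𝒰 : Ultrafilter ℕ} (c : ℝ) : ul 𝒰 (fun _ => c) = c :=
  ul_eq tendsto_const_nhds

/-- The product of two ultrafilters on `ℕ`. -/
noncomputable def pr (U 𝒰 : Ultrafilter ℕ) : Ultrafilter ℕ := U.bind fun k => 𝒰.map (Nat.pair k)

theorem eventually_pr {U 𝒰 : Ultrafilter ℕ} {P : ℕ → Prop} :
    (∀ᶠ n in pr U 𝒰, P n) ↔ ∀ᶠ k in U, ∀ᶠ N in 𝒰, P (Nat.pair k N) := by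
  have h : {n | P n} ∈ (pr U 𝒰 : Filter ℕ) ↔
      {n | P n} ∈ Filter.bind (U : Filter ℕ) fun k => ((𝒰.map (Nat.pair k) : Ultrafilter ℕ) : Filter ℕ) :=
    Iff.rfl
  exact h

end ulim

/-! ### Bounds -/

section base

variable {Γ 𝔾 : Type} [Group Γ] [DecidableEq Γ] [Group 𝔾] {t : ℝ} {mass : 𝔾 → (Γ → ℝ) → ℝ}
  {Cpt : Set 𝔾 → Prop} {Ping : (p : ℕ) → (Fin p → 𝔾) → Prop}

theorem mass_abs (h : SharpData t mass Cpt Ping) (w : 𝔾) {F : Γ → ℝ} {C : ℝ}
    (hF : ∀ g, |F g| ≤ C) : |mass w F| ≤ C * t := by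
  have hC : 0 ≤ C := (abs_nonneg _).trans (hF 1)
  have h1 : mass w (fun _ => C * 1) = C * t := by
    rw [h.smul w (fun _ => 1) 1 C (fun g => by simp), h.one]
  have h2 : mass w (fun _ => (-C) * 1) = -C * t := by
    rw [h.smul w (fun _ => 1) 1 (-C) (fun g => by simp), h.one]
  have h3 : mass w F ≤ mass w (fun _ => C * 1) :=
    h.mono w _ _ C hF (fun g => by rw [mul_one, abs_of_nonneg hC]) fun g => by
      rw [mul_one]; exact (abs_le.1 (hF g)).2
  have h4 : mass w (fun _ => (-C) * 1) ≤ mass w F :=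
    h.mono w _ _ C (fun g => by rw [mul_one, abs_neg, abs_of_nonneg hC]) hF fun g => by
      rw [mul_one]; exact (abs_le.1 (hF g)).1
  rw [abs_le]
  constructor <;> linarith

theorem mass_const (h : SharpData t mass Cpt Ping) (w : 𝔾) (c : ℝ) :
    mass w (fun _ => c) = c * t := by
  have h1 := h.smul w (fun _ => 1) 1 c (fun g => by simp)
  rw [h.one] at h1
  simpa using h1

/-- `unif` for functions. -/
theorem unif_fun (h : SharpData t mass Cpt Ping) {𝒦 : Set 𝔾} {F : Finset Γ} {C ε : ℝ}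
    (hC : 0 ≤ C) (hε : 0 < ε)
    (hF : ∀ κ ∈ 𝒦, ∀ κ' ∈ 𝒦, ∀ (g : 𝔾) (S : Γ → Prop), mass (κ * g * κ') (ind S) ≤
      C * mass g (ind fun x => ∃ a ∈ F, ∃ b ∈ F, S (a * x * b)) + ε) {κ κ' : 𝔾} (hκ : κ ∈ 𝒦)
    (hκ' : κ' ∈ 𝒦) (g : 𝔾) {f f' : Γ → ℝ} (hf : ∀ x, 0 ≤ f x ∧ f x ≤ 1)
    (hf' : ∀ x, 0 ≤ f' x ∧ f' x ≤ 1) (hff : ∀ x, ∀ a ∈ F, ∀ b ∈ F, f (a * x * b) ≤ f' x) :
    mass (κ * g * κ') f ≤ C * mass g f' + ε := by
  classical
  -- layers
  have hfb : ∀ x, |f x| ≤ 1 := fun x => by rw [abs_of_nonneg (hf x).1]; exact (hf x).2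
  have hfb' : ∀ x, |f' x| ≤ 1 := fun x => by rw [abs_of_nonneg (hf' x).1]; exact (hf' x).2
  have key : ∀ M : ℕ, 0 < M → mass (κ * g * κ') f ≤ C * mass g f' + ε + t / M := by
    intro M hM
    have hM' : (0 : ℝ) < M := by exact_mod_cast hM
    obtain ⟨T, hT⟩ : ∃ T : Finset ℕ, T = Finset.range M := ⟨_, rfl⟩
    have lay : ∀ y : ℝ, 0 ≤ y → y ≤ 1 →
        y ≤ (∑ i ∈ T, (M : ℝ)⁻¹ * (if ((i : ℝ) + 1) / M ≤ y then 1 else 0)) + 1 / M ∧
        (∑ i ∈ T, (M : ℝ)⁻¹ * (if ((i : ℝ) + 1) / M ≤ y then (1 : ℝ) else 0)) ≤ y := by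
      intro y hy0 hy1
      have e : ∑ i ∈ T, (M : ℝ)⁻¹ * (if ((i : ℝ) + 1) / M ≤ y then (1 : ℝ) else 0) =
          (M : ℝ)⁻¹ * ⌊y * M⌋₊ := by
        rw [← Finset.mul_sum, Finset.sum_ite, Finset.sum_const_zero, add_zero, Finset.sum_const,
          nsmul_eq_mul, mul_one, hT]
        congr 2
        have : (Finset.range M).filter (fun i : ℕ => ((i : ℝ) + 1) / M ≤ y) =
            Finset.range ⌊y * M⌋₊ := by
          ext i
          rw [Finset.mem_filter, Finset.mem_range, Finset.mem_range]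
          have e1 : ((i : ℝ) + 1) / M ≤ y ↔ i < ⌊y * M⌋₊ := by
            rw [div_le_iff₀ hM', Nat.lt_iff_add_one_le, Nat.le_floor_iff (by positivity)]
            push_cast
            exact Iff.rfl
          rw [e1]
          constructor
          · exact fun h => h.2
          · intro hi
            refine ⟨?_, hi⟩
            have h1 : ⌊y * M⌋₊ ≤ M := Nat.floor_le_of_le (by nlinarith)
            omega
        rw [this, Finset.card_range]
      rw [e]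
      have h1 := Nat.lt_floor_add_one (y * M)
      have h2 := Nat.floor_le (show 0 ≤ y * M by positivity)
      constructor
      · rw [← sub_nonneg]
        have : (M : ℝ)⁻¹ * ⌊y * M⌋₊ + 1 / M - y = (M : ℝ)⁻¹ * (⌊y * M⌋₊ + 1 - y * M) := by
          field_simp
        rw [this]
        exact mul_nonneg (inv_nonneg.2 hM'.le) (by linarith)
      · rw [inv_mul_le_iff₀ hM']
        linarith
    -- the sums of indicators
    have hTcard : T.card = M := by rw [hT, Finset.card_range]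
    obtain ⟨q, hq⟩ : ∃ q : ℕ → Γ → ℝ, ∀ i x, q i x = ind (fun x => ((i : ℝ) + 1) / M ≤ f x) x :=
      ⟨_, fun _ _ => rfl⟩
    have hqb : ∀ i x, |q i x| ≤ 1 := fun i x => by rw [hq]; exact abs_ind_le _ _
    have hMi : 0 ≤ (M : ℝ)⁻¹ := inv_nonneg.2 hM'.le
    have hMi1 : (M : ℝ)⁻¹ ≤ 1 := by
      rw [inv_le_one₀ hM']; exact_mod_cast hM
    have hqb2 : ∀ i x, |(M : ℝ)⁻¹ * q i x| ≤ 1 := fun i x => by
      rw [abs_mul, abs_of_nonneg hMi]
      exact mul_le_one₀ hMi1 (abs_nonneg _) (hqb i x)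
    have h1 : mass (κ * g * κ') f ≤ mass (κ * g * κ') (fun x => (∑ i ∈ T, (M : ℝ)⁻¹ * q i x) + 1 / M) := by
      refine h.mono _ _ _ (M + 1) (fun x => (hfb x).trans (by linarith)) (fun x => ?_) (fun x => ?_)
      · refine (abs_add_le _ _).trans ?_
        have a1 : |∑ i ∈ T, (M : ℝ)⁻¹ * q i x| ≤ M := by
          refine (Finset.abs_sum_le_sum_abs _ _).trans ?_
          refine (Finset.sum_le_sum fun i _ => hqb2 i x).trans ?_
          rw [Finset.sum_const, nsmul_eq_mul, mul_one, hTcard]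
        have a2 : |(1 : ℝ) / M| ≤ 1 := by
          rw [abs_of_nonneg (by positivity), one_div]; exact hMi1
        linarith
      · have := (lay (f x) (hf x).1 (hf x).2).1
        refine this.trans (le_of_eq ?_)
        congr 1
        refine Finset.sum_congr rfl fun i _ => ?_
        rw [hq]; rfl
    have h2 : mass (κ * g * κ') (fun x => (∑ i ∈ T, (M : ℝ)⁻¹ * q i x) + 1 / M) =
        (∑ i ∈ T, (M : ℝ)⁻¹ * mass (κ * g * κ') (q i)) + t / M := by
      rw [h.add _ _ _ ((M : ℝ) + 1) (fun x => ?_) (fun x => ?_), mass_const h,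
        h.sum _ T (fun i x => (M : ℝ)⁻¹ * q i x) (C := 1) fun i _ x => hqb2 i x]
      · congr 1
        · refine Finset.sum_congr rfl fun i _ => ?_
          exact h.smul _ _ 1 _ (hqb i)
        · ring
      · refine (Finset.abs_sum_le_sum_abs _ _).trans ?_
        refine (Finset.sum_le_sum fun i _ => hqb2 i x).trans ?_
        rw [Finset.sum_const, nsmul_eq_mul, mul_one, hTcard]
        linarith
      · have a2 : |(1 : ℝ) / M| ≤ 1 := by
          rw [abs_of_nonneg (by positivity), one_div]; exact hMi1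
        linarith
    obtain ⟨q', hq'⟩ : ∃ q' : ℕ → Γ → ℝ, ∀ i x, q' i x = ind (fun x => ((i : ℝ) + 1) / M ≤ f' x) x :=
      ⟨_, fun _ _ => rfl⟩
    have hqb' : ∀ i x, |q' i x| ≤ 1 := fun i x => by rw [hq']; exact abs_ind_le _ _
    have hqb2' : ∀ i x, |(M : ℝ)⁻¹ * q' i x| ≤ 1 := fun i x => by
      rw [abs_mul, abs_of_nonneg hMi]
      exact mul_le_one₀ hMi1 (abs_nonneg _) (hqb' i x)
    have h3 : ∀ i ∈ T, mass (κ * g * κ') (q i) ≤ C * mass g (q' i) + ε := by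
      intro i _
      have e1 : q i = ind (fun x => ((i : ℝ) + 1) / M ≤ f x) := funext fun x => hq i x
      have e2 : q' i = ind (fun x => ((i : ℝ) + 1) / M ≤ f' x) := funext fun x => hq' i x
      rw [e1, e2]
      refine (hF κ hκ κ' hκ' g _).trans ?_
      refine add_le_add (mul_le_mul_of_nonneg_left (h.ind_mono g fun x hx => ?_) hC) le_rfl
      obtain ⟨a, ha, b, hb, hab⟩ := hx
      exact hab.trans (hff x a ha b hb)
    have h4 : ∑ i ∈ T, (M : ℝ)⁻¹ * mass g (q' i) ≤ mass g f' := by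
      have e1 : ∑ i ∈ T, (M : ℝ)⁻¹ * mass g (q' i) = mass g (fun x => ∑ i ∈ T, (M : ℝ)⁻¹ * q' i x) := by
        rw [h.sum _ T (fun i x => (M : ℝ)⁻¹ * q' i x) (C := 1) fun i _ x => hqb2' i x]
        refine Finset.sum_congr rfl fun i _ => ?_
        exact (h.smul _ _ 1 _ (hqb' i)).symm
      rw [e1]
      refine h.mono _ _ _ (M + 1) (fun x => ?_) (fun x => (hfb' x).trans (by linarith)) (fun x => ?_)
      · refine (Finset.abs_sum_le_sum_abs _ _).trans ?_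
        refine (Finset.sum_le_sum fun i _ => hqb2' i x).trans ?_
        rw [Finset.sum_const, nsmul_eq_mul, mul_one, hTcard]
        linarith
      · refine le_trans (le_of_eq ?_) (lay (f' x) (hf' x).1 (hf' x).2).2
        refine Finset.sum_congr rfl fun i _ => ?_
        rw [hq']; rfl
    calc mass (κ * g * κ') f ≤ (∑ i ∈ T, (M : ℝ)⁻¹ * mass (κ * g * κ') (q i)) + t / M := by
          rw [← h2]; exact h1
      _ ≤ (∑ i ∈ T, (M : ℝ)⁻¹ * (C * mass g (q' i) + ε)) + t / M :=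
          add_le_add (Finset.sum_le_sum fun i hi => mul_le_mul_of_nonneg_left (h3 i hi) hMi) le_rfl
      _ = C * (∑ i ∈ T, (M : ℝ)⁻¹ * mass g (q' i)) + ε + t / M := by
          have e1 : ∑ i ∈ T, (M : ℝ)⁻¹ * (C * mass g (q' i) + ε) =
              C * (∑ i ∈ T, (M : ℝ)⁻¹ * mass g (q' i)) + ∑ i ∈ T, (M : ℝ)⁻¹ * ε := by
            rw [Finset.mul_sum, ← Finset.sum_add_distrib]
            exact Finset.sum_congr rfl fun i _ => by ring
          have e2 : ∑ i ∈ T, (M : ℝ)⁻¹ * ε = ε := by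
            rw [Finset.sum_const, nsmul_eq_mul, hTcard]
            field_simp
          rw [e1, e2]
      _ ≤ C * mass g f' + ε + t / M :=
          add_le_add (add_le_add (mul_le_mul_of_nonneg_left h4 hC) le_rfl) le_rfl
  refine le_of_forall_pos_le_add fun δ hδ => ?_
  obtain ⟨M, hM⟩ := exists_nat_gt (t / δ)
  have hM0 : 0 < (M : ℝ) := lt_of_le_of_lt (div_nonneg h.pos.le hδ.le) hM
  have h1 := key M (by exact_mod_cast hM0)
  have h2 : t / M ≤ δ := by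
    rw [div_le_iff₀ hM0]
    rw [div_lt_iff₀ hδ] at hM
    linarith
  linarith

end base

end Vale.Agent.P092.H218.NR
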